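import Claimed.Agent.R256.Nm.Can.Main
import Claimed.Agent.R256.Nm.Pred.Exit
import Claimed.Agent.R256.Nm.Pro.Mono

/-!
# Row 256 (S0496), unit NM, sub-block CAN, file 5: THE COUNT AT THE EQUALITY POINTS = X3      (helper118; prefix `nm_cn_`)

`nm_cn_equal` = `nm_equal` of `Nm/Contract.lean`, VERBATIM  (Prop. names:canonical-entropy (i); 04-canonical-names.tex l.262-276).
The reached label lists the name (`nm_x_own`, `nm_x_left_eq`, `nm_x_left_lin`, `nm_x_end` of helper51, at `j = a`); every charged final row reaches a label of the gate (`clPath`); `cnt` + (F) count the labels: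
`#labels ≤ ek s^(-Zf(j) - 5 t)`, `Zf(j) = (p+d) j + (3+η) u(j) + (1-η) n(j)`;   at an equality point `Z(a,v) = Zf(a)` (`v = u(a)`, `w = l + v = b_1(a) + u(a) = n(a)`, `g = 0`).
-/

set_option autoImplicit false

namespace Claimed.Agent.R256

open Claimed.Agent.R255
open Classical

noncomputable section

variable {D : SfDoc} {π : SfPar} {C0 τ κ0 t : ℝ}

/-- lists indexed by the labels of a gate -/
theorem nm_cn_union {β : Type} (j : ℝ) (N : ℝ) (L : SfTest → Finset β) (hL : ∀ lam, ((L lam).card : ℝ) ≤ N) :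
    ((((Finset.univ : Finset (D.Row j)).image (D.lab j)).biUnion L).card : ℝ) ≤ N * ((Set.range (D.lab j)).ncard : ℝ) := by
  have h1 : (Set.range (D.lab j)).ncard = ((Finset.univ : Finset (D.Row j)).image (D.lab j)).card := by
    rw [← Set.ncard_coe_finset]
    congr 1
    ext x
    simp
  rw [h1]
  calc ((((Finset.univ : Finset (D.Row j)).image (D.lab j)).biUnion L).card : ℝ)
      ≤ ((∑ lam ∈ (Finset.univ : Finset (D.Row j)).image (D.lab j), (L lam).card : ℕ) : ℝ) := by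
        exact_mod_cast Finset.card_biUnion_le
    _ = ∑ lam ∈ (Finset.univ : Finset (D.Row j)).image (D.lab j), ((L lam).card : ℝ) := by push_cast; rfl
    _ ≤ ∑ _lam ∈ (Finset.univ : Finset (D.Row j)).image (D.lab j), N := Finset.sum_le_sum fun lam _ => hL lam
    _ = _ := by rw [Finset.sum_const, nsmul_eq_mul, mul_comm]

/-- classical: a variable listed by the labels of a gate `j < 1` -/
theorem nm_cn_cover (hD : D.Core π C0 t) (hcl : π.hyb = false) {j : ℝ} (hj : j ∈ D.G) (hj1 : j < 1) {β : Type} (B : D.Row 1 → β) {N : ℝ}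
    (h : D.LabPr j (fun _ => True) B (fun _ => ()) N) :
    ∃ S : Finset β, (S.card : ℝ) ≤ N * ((Set.range (D.lab j)).ncard : ℝ) ∧ ∀ ω, (D.P 1).p ω ≠ 0 → B ω ∈ S := by
  choose L hL1 hL2 using fun lam => h lam ()
  refine ⟨((Finset.univ : Finset (D.Row j)).image (D.lab j)).biUnion L, nm_cn_union j N L hL1, fun ω hω => ?_⟩
  have hpos : 0 < (D.P 1).p ω := lt_of_le_of_ne ((D.P 1).nonneg ω) (Ne.symm hω)
  obtain ⟨ρ, hc, -⟩ := hD.clPath hcl j hj 1 hD.gate.1 hj1 ω hpos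
  refine Finset.mem_biUnion.2 ⟨D.lab j ρ, Finset.mem_image.2 ⟨ρ, Finset.mem_univ _, rfl⟩, hL2 (D.lab j ρ) ω ?_ trivial rfl⟩
  unfold SfDoc.Met
  rw [if_neg hj1.ne]
  exact ⟨ρ, rfl, hc⟩

/-- a variable listed by the own final label -/
theorem nm_cn_cover_own {β : Type} (B : D.Row 1 → β) {N : ℝ} (h : D.OwnPr B (fun _ => ()) N) :
    ∃ S : Finset β, (S.card : ℝ) ≤ N * ((Set.range (D.lab 1)).ncard : ℝ) ∧ ∀ ω, B ω ∈ S := by
  choose L hL1 hL2 using fun lam => h lam ()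
  refine ⟨((Finset.univ : Finset (D.Row 1)).image (D.lab 1)).biUnion L, nm_cn_union 1 N L hL1, fun ω => ?_⟩
  exact Finset.mem_biUnion.2 ⟨D.lab 1 ω, Finset.mem_image.2 ⟨ω, Finset.mem_univ _, rfl⟩, hL2 (D.lab 1 ω) ω rfl rfl⟩

/-- the benchmark exponent of the labels of the gate `j` -/
def SfPar.Zf (π : SfPar) (j : ℝ) : ℝ := (π.p + π.d) * j + (3 + π.η) * π.u j + (1 - π.η) * π.n j

/-- `cnt` + (F) -/
theorem nm_cn_count (hD : D.Ok π C0 τ κ0 t) (hπ : π.Valid) {j : ℝ} (hj : j ∈ D.G) :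
    ((Set.range (D.lab j)).ncard : ℝ) ≤ D.ek * D.s ^ (-(π.Zf j) - 5 * t) := by
  have hc := hD.core
  have hs := hc.hs
  have hp : ∀ x y : ℝ, D.s ^ x * D.s ^ y = D.s ^ (x + y) := fun x y => (Real.rpow_add hs.1 x y).symm
  have hpos : ∀ x : ℝ, 0 < D.s ^ x := fun x => Real.rpow_pos_of_pos hs.1 x
  have hcnt := hc.cnt j hj
  have h3 : 0 ≤ 3 + π.η := by linarith [hπ.eta.1]
  have h1 : 0 ≤ 1 - π.η := by linarith [hπ.eta.2]
  have hr : D.s ^ ((π.u j + t) * (3 + π.η)) ≤ D.r j ^ (3 + π.η) := by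
    rw [Real.rpow_mul hs.1.le]
    exact Real.rpow_le_rpow (hpos _).le (hD.aff.hr j hj).1 h3
  have hf : D.s ^ ((π.n j + t) * (1 - π.η)) ≤ D.f j ^ (1 - π.η) := by
    rw [Real.rpow_mul hs.1.le]
    exact Real.rpow_le_rpow (hpos _).le (hD.aff.hf j hj).1 h1
  set n : ℝ := ((Set.range (D.lab j)).ncard : ℝ) with hn
  have hn0 : 0 ≤ n := Nat.cast_nonneg _
  set W : ℝ := D.s ^ ((π.u j + t) * (3 + π.η)) * D.s ^ ((π.n j + t) * (1 - π.η)) with hW
  have hWpos : 0 < W := mul_pos (hpos _) (hpos _)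
  have hWle : W ≤ D.r j ^ (3 + π.η) * D.f j ^ (1 - π.η) := mul_le_mul hr hf (hpos _).le ((hpos _).le.trans hr)
  have h5 : n * W ≤ D.s ^ (-t) * D.ek * D.s ^ (-((π.p + π.d) * j)) := (mul_le_mul_of_nonneg_left hWle hn0).trans hcnt
  have h6 : n ≤ D.s ^ (-t) * D.ek * D.s ^ (-((π.p + π.d) * j)) / W := by
    rw [le_div_iff₀ hWpos]; exact h5
  refine h6.trans (le_of_eq ?_)
  have hWinv : W * D.s ^ (-((π.u j + t) * (3 + π.η) + (π.n j + t) * (1 - π.η))) = 1 := by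
    rw [hW, hp, hp, add_neg_cancel, Real.rpow_zero]
  have hdiv : ∀ x : ℝ, x / W = x * D.s ^ (-((π.u j + t) * (3 + π.η) + (π.n j + t) * (1 - π.η))) := by
    intro x
    rw [div_eq_iff hWpos.ne', mul_assoc, mul_comm _ W, hWinv, mul_one]
  rw [hdiv]
  calc D.s ^ (-t) * D.ek * D.s ^ (-((π.p + π.d) * j)) * D.s ^ (-((π.u j + t) * (3 + π.η) + (π.n j + t) * (1 - π.η)))
      = D.ek * (D.s ^ (-t) * D.s ^ (-((π.p + π.d) * j)) * D.s ^ (-((π.u j + t) * (3 + π.η) + (π.n j + t) * (1 - π.η)))) := by ring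
    _ = D.ek * D.s ^ (-(π.Zf j) - 5 * t) := by
        rw [hp, hp]
        congr 2
        unfold SfPar.Zf
        ring

/-- a Lipschitz constant of `Zf` -/
def SfPar.Cz (π : SfPar) : ℝ := 4 + 4 * |π.J| + |π.q - 2 * π.J|

theorem nm_cn_Zf_lip (hπ : π.Valid) (j a : ℝ) : |π.Zf j - π.Zf a| ≤ π.Cz * |j - a| := by
  have e : π.Zf j - π.Zf a = ((π.p + π.d) - (3 + π.η) * π.J + (1 - π.η) * (π.q - 2 * π.J)) * (j - a) := by
    unfold SfPar.Zf SfPar.u SfPar.n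
    ring
  rw [e, abs_mul]
  refine mul_le_mul_of_nonneg_right ?_ (abs_nonneg _)
  have h1 : |π.p + π.d| ≤ 4 := by
    rw [abs_le]; constructor <;> linarith [hπ.p1.1, hπ.p1.2, hπ.d1.1, hπ.d1.2]
  have h2 : |(3 + π.η) * π.J| ≤ 4 * |π.J| := by
    rw [abs_mul]
    refine mul_le_mul_of_nonneg_right ?_ (abs_nonneg _)
    rw [abs_le]; constructor <;> linarith [hπ.eta.1, hπ.eta.2]
  have h3 : |(1 - π.η) * (π.q - 2 * π.J)| ≤ |π.q - 2 * π.J| := by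
    rw [abs_mul]
    refine mul_le_of_le_one_left (abs_nonneg _) ?_
    rw [abs_le]; constructor <;> linarith [hπ.eta.1, hπ.eta.2]
  unfold SfPar.Cz
  calc |(π.p + π.d) - (3 + π.η) * π.J + (1 - π.η) * (π.q - 2 * π.J)|
      ≤ |(π.p + π.d) - (3 + π.η) * π.J| + |(1 - π.η) * (π.q - 2 * π.J)| := abs_add_le _ _
    _ ≤ |π.p + π.d| + |(3 + π.η) * π.J| + |(1 - π.η) * (π.q - 2 * π.J)| := by linarith [abs_sub (π.p + π.d) ((3 + π.η) * π.J)]
    _ ≤ _ := by linarith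

theorem nm_cn_Cz_nonneg (π : SfPar) : 0 ≤ π.Cz := by
  unfold SfPar.Cz
  positivity

/-- the count, at a gate within `t` of `a` -/
theorem nm_cn_fin (hD : D.Ok π C0 τ κ0 t) (hπ : π.Valid) {j a acc : ℝ} (hj : j ∈ D.G) (hja : |j - a| ≤ t) (hsm : (π.Cz + 5) * t ≤ acc / 2)
    {c : ℝ} (hS : c ≤ D.s ^ (-(acc / 2)) * ((Set.range (D.lab j)).ncard : ℝ)) : c ≤ D.ek * D.s ^ (-(π.Zf a) - acc) := by
  have hc := hD.core
  have hs := hc.hs
  have hek : 0 < D.ek := lt_of_lt_of_le (Real.rpow_pos_of_pos hs.1 _) hc.hek.1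
  have hpos : ∀ x : ℝ, 0 < D.s ^ x := fun x => Real.rpow_pos_of_pos hs.1 x
  have hlip := (nm_cn_Zf_lip hπ j a).trans (mul_le_mul_of_nonneg_left hja (nm_cn_Cz_nonneg π))
  have hlip' := (abs_le.1 hlip).2
  calc c ≤ D.s ^ (-(acc / 2)) * ((Set.range (D.lab j)).ncard : ℝ) := hS
    _ ≤ D.s ^ (-(acc / 2)) * (D.ek * D.s ^ (-(π.Zf j) - 5 * t)) := mul_le_mul_of_nonneg_left (nm_cn_count hD hπ hj) (hpos _).le
    _ = D.ek * (D.s ^ (-(acc / 2)) * D.s ^ (-(π.Zf j) - 5 * t)) := by ring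
    _ = D.ek * D.s ^ (-(acc / 2) + (-(π.Zf j) - 5 * t)) := by rw [← Real.rpow_add hs.1]
    _ ≤ D.ek * D.s ^ (-(π.Zf a) - acc) := by
        refine mul_le_mul_of_nonneg_left (nm_pw hs ?_) hek.le
        nlinarith

/-- at an equality point -/
theorem nm_cn_Z_eq {q : NmQ} {a v : ℝ} (hg : q.g = 0) (hl : q.l π a v = π.b1 a) (hv : v = π.u a) : q.Z π a v = π.Zf a := by
  unfold NmQ.Z NmQ.W SfPar.Zf
  rw [nm_w_eq, hl, hg, hv]
  unfold SfPar.b1 SfPar.u SfPar.n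
  ring

/-- the count from a list by the labels of the gate near `a < 1` (classical) -/
theorem nm_cn_equal_gate (hπ : π.Valid) (hcl : π.hyb = false) (q : NmQ) (a v : ℝ) (ha : 0 ≤ a ∧ a < 1) (hZ : q.Z π a v = π.Zf a)
    (H : ∀ acc : ℝ, 0 < acc → ∃ t0 : ℝ, 0 < t0 ∧ ∀ D : SfDoc, D.Fine π C0 τ κ0 t0 →
      D.LabPr (D.gt a) (fun _ => True) (D.nm π q a v) (fun _ => ()) (D.s ^ (-acc))) :
    NmA π C0 τ κ0 fun acc D => ∃ S : Finset NmNm, (S.card : ℝ) ≤ D.ek * D.s ^ (-(q.Z π a v) - acc) ∧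
      ∀ ω, (D.P 1).p ω ≠ 0 → D.nm π q a v ω ∈ S := by
  intro acc hacc
  obtain ⟨t0', ht0', H'⟩ := H (acc / 2) (by positivity)
  have hCz := nm_cn_Cz_nonneg π
  have h1a : 0 < (1 - a) / 2 := by linarith [ha.2]
  have hq0 : 0 < acc / (2 * (π.Cz + 5)) := by positivity
  refine ⟨min t0' (min ((1 - a) / 2) (acc / (2 * (π.Cz + 5)))), by positivity, fun D hF _ => ?_⟩
  set t : ℝ := min t0' (min ((1 - a) / 2) (acc / (2 * (π.Cz + 5)))) with ht
  have h1 : t ≤ t0' := min_le_left _ _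
  have h2 : t ≤ (1 - a) / 2 := (min_le_right _ _).trans (min_le_left _ _)
  have h3 : (π.Cz + 5) * t ≤ acc / 2 := by
    have : t ≤ acc / (2 * (π.Cz + 5)) := (min_le_right _ _).trans (min_le_right _ _)
    rw [le_div_iff₀ (by positivity)] at this
    linarith
  have hlab := H' D (nm_pro_fine_mono hF h1 le_rfl)
  have hc := hF.ok.core
  have hjG : D.gt a ∈ D.G := nm_gt_mem D ⟨1, hc.gate.1⟩ a
  have hja : |D.gt a - a| ≤ t := nm_gt_near hF ha.1 ha.2.le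
  have hj1 : D.gt a < 1 := by linarith [(abs_le.1 hja).2]
  obtain ⟨S, hS1, hS2⟩ := nm_cn_cover hc hcl hjG hj1 (D.nm π q a v) hlab
  refine ⟨S, ?_, hS2⟩
  rw [hZ]
  exact nm_cn_fin hF.ok hπ hjG hja h3 hS1

/-- the count from a list by the own final label, at `(1, 0)` -/
theorem nm_cn_equal_own (hπ : π.Valid) (q : NmQ) (hZ : q.Z π 1 0 = π.Zf 1)
    (H : ∀ acc : ℝ, 0 < acc → ∃ t0 : ℝ, 0 < t0 ∧ ∀ D : SfDoc, D.Fine π C0 τ κ0 t0 → D.OwnPr (D.nm π q 1 0) (fun _ => ()) (D.s ^ (-acc))) :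
    NmA π C0 τ κ0 fun acc D => ∃ S : Finset NmNm, (S.card : ℝ) ≤ D.ek * D.s ^ (-(q.Z π 1 0) - acc) ∧
      ∀ ω, (D.P 1).p ω ≠ 0 → D.nm π q 1 0 ω ∈ S := by
  intro acc hacc
  obtain ⟨t0', ht0', H'⟩ := H (acc / 2) (by positivity)
  have hCz := nm_cn_Cz_nonneg π
  have hq0 : 0 < acc / (2 * (π.Cz + 5)) := by positivity
  refine ⟨min t0' (acc / (2 * (π.Cz + 5))), by positivity, fun D hF _ => ?_⟩
  set t : ℝ := min t0' (acc / (2 * (π.Cz + 5))) with ht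
  have h1 : t ≤ t0' := min_le_left _ _
  have h3 : (π.Cz + 5) * t ≤ acc / 2 := by
    have : t ≤ acc / (2 * (π.Cz + 5)) := min_le_right _ _
    rw [le_div_iff₀ (by positivity)] at this
    linarith
  have hlab := H' D (nm_pro_fine_mono hF h1 le_rfl)
  have hc := hF.ok.core
  obtain ⟨S, hS1, hS2⟩ := nm_cn_cover_own (D.nm π q 1 0) hlab
  refine ⟨S, ?_, fun ω _ => hS2 ω⟩
  rw [hZ]
  exact nm_cn_fin hF.ok hπ hc.gate.1 (by rw [sub_self, abs_zero]; exact hF.pos.le) h3 hS1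

/-- the equality point `(1, 0)`, end point `1` -/
theorem nm_cn_equal_one (hπ : π.Valid) (q : NmQ) (hq : q.Fam π) (hg : q.g = 0) (hl : q.l π 1 0 = π.b1 1) (hDe : q.ds.De = 1) :
    NmA π C0 τ κ0 fun acc D => ∃ S : Finset NmNm, (S.card : ℝ) ≤ D.ek * D.s ^ (-(q.Z π 1 0) - acc) ∧
      ∀ ω, (D.P 1).p ω ≠ 0 → D.nm π q 1 0 ω ∈ S := by
  have hu1 : π.u 1 = 0 := by unfold SfPar.u; ring
  have hb11 : π.b1 1 = 0 := by unfold SfPar.b1; ring
  have hb21 : π.b2 1 = 0 := by unfold SfPar.b2; ring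
  have hok := nm_fam_ok π hπ q hq
  have hfb : q.FamE π 1 ∧ q.ds.b 1 = 0 := by
    obtain ⟨-, -, h⟩ := hq
    rcases h with ⟨h1, h2, h3, -⟩ | ⟨h1, h2, h3, -⟩ | ⟨h1, h2, -, De, -, -, -, h3⟩
    · refine ⟨Or.inl ⟨h1, h2, h3, rfl⟩, ?_⟩
      rw [h3]; simp [NmDs.b, nmDsEq]
    · refine ⟨Or.inr (Or.inl ⟨h1, h2, ?_, h3, rfl⟩), ?_⟩
      · rcases hπ.fam with ⟨g1, -⟩ | ⟨g1, -⟩ | ⟨-, -, g3⟩
        · rw [h1] at g1; exact absurd g1 (lt_irrefl _)
        · rw [h1] at g1; norm_num at g1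
        · exact g3
      · rw [h3]; simp [NmDs.b, nmDsLin]
    · have hD1 : De = 1 := by rw [h3] at hDe; exact hDe
      subst hD1
      refine ⟨Or.inr (Or.inr ⟨h1, h2, h3⟩), ?_⟩
      rw [h3]; simp [NmDs.b, nmDsStr, hb21]
  refine nm_cn_equal_own hπ q (nm_cn_Z_eq hg hl hu1.symm) fun acc hacc => ?_
  obtain ⟨t0, ht0, H⟩ := nm_x_own π hπ C0 τ κ0 q hok hfb.1 hg 1 0 le_rfl le_rfl (by norm_num) (fun _ => hfb.2.le) (fun _ => by rw [hfb.2]; norm_num)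
    (by rw [hl, hb11]) (by rw [nm_w_eq, hl, hb11]; norm_num) acc hacc
  exact ⟨t0, ht0, fun D hD => (H D hD).2 rfl⟩

/-- **X3** -/
theorem nm_cn_equal (π : SfPar) (hπ : π.Valid) (C0 τ κ0 : ℝ) (q : NmQ) (hq : q.Fam π) (a v : ℝ) (he : q.EqPt π a v) :
    NmA π C0 τ κ0 fun acc D => ∃ S : Finset NmNm, (S.card : ℝ) ≤ D.ek * D.s ^ (-(q.Z π a v) - acc) ∧
      ∀ ω, (D.P 1).p ω ≠ 0 → D.nm π q a v ω ∈ S := by
  obtain ⟨hg, hl, h⟩ := he
  have hu1 : π.u 1 = 0 := by unfold SfPar.u; ring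
  have hok := nm_fam_ok π hπ q hq
  rcases h with ⟨hDe, rfl, rfl⟩ | ⟨hcl, hgl, hCr, ha0, ha1, rfl⟩ | ⟨hcl, hgl, rfl, rfl⟩
  · exact nm_cn_equal_one hπ q hq hg hl hDe
  · rcases eq_or_lt_of_le ha1 with rfl | ha1
    · rw [hu1] at hl ⊢
      refine nm_cn_equal_one hπ q hq hg hl ?_
      obtain ⟨-, -, h⟩ := hq
      rcases h with ⟨-, -, h3, -⟩ | ⟨-, -, h3, -⟩ | ⟨-, -, -, De, -, -, -, h3⟩
      · rw [h3]; rfl
      · rw [h3]; rfl
      · rw [h3] at hgl; simp [nmDsStr] at hgl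
    · refine nm_cn_equal_gate hπ hcl q a (π.u a) ⟨ha0.le, ha1⟩ (nm_cn_Z_eq hg hl rfl) fun acc hacc => ?_
      have hb1 : π.b1 a ≤ 0 := by
        unfold SfPar.b1
        unfold SfPar.Cr at hCr
        exact mul_nonpos_of_nonneg_of_nonpos hCr.le (by linarith)
      obtain ⟨-, -, h⟩ := hq
      rcases h with ⟨h1, h2, h3, h4⟩ | ⟨h1, h2, h3, h4⟩ | ⟨-, -, -, De, -, -, -, h3⟩
      · exact nm_x_left_eq π hπ C0 τ κ0 q hok h1 h2 h3 h4 a a (π.u a) ⟨le_rfl, ha1, ha0.le⟩ le_rfl (by rw [hl]; exact le_min le_rfl hb1)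
          (fun hh => by rw [hcl] at hh; cases hh) acc hacc
      · have hqc : π.q = π.c1 + π.J := by
          rcases hπ.fam with ⟨g1, -⟩ | ⟨g1, -⟩ | ⟨-, -, g3⟩
          · rw [h1] at g1; exact absurd g1 (lt_irrefl _)
          · rw [h1] at g1; norm_num at g1
          · exact g3
        exact nm_x_left_lin π hπ C0 τ κ0 q hok h1 h2 hqc h3 h4 a a (π.u a) ⟨le_rfl, ha1, ha0.le⟩ le_rfl (by rw [sub_self, mul_zero, sub_zero])
          (fun hh => by rw [hcl] at hh; cases hh) acc hacc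
      · rw [h3] at hgl; simp [nmDsStr] at hgl
  · obtain ⟨-, -, h⟩ := id hq
    rcases h with ⟨-, -, h3, -⟩ | ⟨-, -, h3, -⟩ | ⟨-, -, h4, De, hD0, hD1, -, h3⟩
    · rw [h3] at hgl; simp [nmDsEq] at hgl
    · rw [h3] at hgl; simp [nmDsLin] at hgl
    · have hDD : q.ds.De = De := by rw [h3]; rfl
      rw [hDD] at hl ⊢
      rcases eq_or_lt_of_le hD1 with rfl | hD1
      · rw [hu1] at hl ⊢
        exact nm_cn_equal_one hπ q hq hg hl hDD
      · refine nm_cn_equal_gate hπ hcl q De (π.u De) ⟨hD0.le, hD1⟩ (nm_cn_Z_eq hg hl rfl) fun acc hacc => ?_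
        exact nm_x_end π hπ hcl C0 τ κ0 q hok De ⟨hD0, hD1⟩ h3 h4 hg De le_rfl hl.le acc hacc

theorem nm_cn_eq_eqns_cite : True := by
  have := @SfPar.Zf.eq_1; have := @SfPar.Cz.eq_1
  trivial

end

end Claimed.Agent.R256
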