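import Claimed.Agent.R256.Nm.Can.Geo

/-!
# Row 256 (S0496), unit NM, sub-block CAN, file 4: (canon) = X2      (helper118; prefix `nm_cn_`)

`nm_cn_canon` = `nm_canon` of `Nm/Contract.lean`, VERBATIM.
CONSTANTS: `κ = acc / 100`, `E0` = sum of `|C0|` and of the absolute values of the ten depths, `t = t0 ≤ κ / 13`, `1 / t ≥ 30 E0 + 10 + 2 v + |w - g| + acc`, `7 ≤ s^(-κ/2)`, `3.2e9 ≤ s^(-1)`;
gate `i ∈ [a - 3 t, a + t]`, `i < 1`;   `M = s^(-4t)`, `K = s^(-κ)`, `S = s^(-(15 E0 + 1))`, `θ = s^(3 + 2 v + |w - g|)`.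
-/

set_option autoImplicit false

namespace Claimed.Agent.R256

open Claimed.Agent.R255
open Classical

noncomputable section

/-- a constant is absorbed by a negative power of a small scale -/
theorem nm_cn_const {c κ : ℝ} (hc : 1 ≤ c) (hκ : 0 < κ) : ∃ t1 : ℝ, 0 < t1 ∧ ∀ s : ℝ, 0 < s → s ≤ t1 → c ≤ s ^ (-κ) := by
  have hc0 : 0 < c := by linarith
  refine ⟨c ^ (-(1 / κ)), Real.rpow_pos_of_pos hc0 _, fun s hs hle => ?_⟩
  have h1 := Real.rpow_le_rpow_of_nonpos hs hle (by linarith : -κ ≤ 0)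
  have h2 : (c ^ (-(1 / κ))) ^ (-κ) = c := by
    rw [← Real.rpow_mul hc0.le]
    have : -(1 / κ) * -κ = 1 := by field_simp
    rw [this, Real.rpow_one]
  rwa [h2] at h1

theorem nm_cn_De_le {π : SfPar} {q : NmQ} (hq : q.Fam π) : q.ds.De ≤ 1 := by
  obtain ⟨-, -, h⟩ := hq
  rcases h with ⟨-, -, h, -⟩ | ⟨-, -, h, -⟩ | ⟨-, -, -, De, -, h1, -, h⟩
  · rw [h]; exact le_rfl
  · rw [h]; exact le_rfl
  · rw [h]; exact h1


/-- the sizes: `hSz` of `nm_cn_geo` -/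
theorem nm_cn_sz {D : SfDoc} {π : SfPar} {C0 t : ℝ} (hD : D.Core π C0 t) (q : NmQ) (a v E0 : ℝ)
    (e0 : |C0| ≤ E0) (e1 : |a| ≤ E0) (e2 : |v| ≤ E0) (e3 : |a + v| ≤ E0) (e4 : |a + 2 * v| ≤ E0) (e5 : |q.ds.b a| ≤ E0) (e6 : |q.ds.b a - a| ≤ E0)
    (e7 : |q.l π a v| ≤ E0) (e8 : |q.w π a v - q.g| ≤ E0) (e9 : |a + q.w π a v - q.g| ≤ E0) (e10 : |π.b2 q.ds.De - q.ds.De| ≤ E0)
    (hsm : (3200000000 : ℝ) ≤ D.s ^ (-(1 : ℝ))) (ω : D.Row 1) (T r f : ℝ) (hT : |T| ≤ 1) :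
    (nmTs D.s π q a v (D.nm π q a v ω) T r f).size ≤ D.s ^ (-(15 * E0 + 1)) := by
  have hs := hD.hs
  have hE0 : 0 ≤ E0 := (abs_nonneg _).trans e0
  set A0 : ℝ := D.s ^ (-E0) with hA0
  have hA01 : 1 ≤ A0 := Real.one_le_rpow_of_pos_of_le_one_of_nonpos hs.1 hs.2.le (by linarith)
  have hw : ∀ x : ℝ, |x| ≤ E0 → D.s ^ x ≤ A0 := fun x hx => nm_pw hs (by linarith [neg_abs_le x])
  have hw' : ∀ x : ℝ, |x| ≤ E0 → D.s ^ (-x) ≤ A0 := fun x hx => nm_pw hs (by linarith [le_abs_self x])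
  have hA3 : A0 ≤ A0 ^ 3 := by
    calc A0 = A0 ^ 1 := (pow_one A0).symm
      _ ≤ A0 ^ 3 := pow_le_pow_right₀ hA01 (by norm_num)
  have hA03 : 0 ≤ A0 ^ 3 := by positivity
  set A : ℝ := 20 * A0 ^ 3 with hA
  have hAA : A0 ≤ A := by linarith
  have hA1 : 1 ≤ A := by linarith
  obtain ⟨r1, r2, r3, r4⟩ := nm_cn_raw hD q.ds ω A0 hA01 (hw' C0 e0) (hw _ e10)
  have h := nm_cn_size hs.1 hs.2 π q a v (D.raw π q.ds ω) A hA1 r1 r2 r3 (by linarith) ((hw _ e1).trans hAA) ((hw _ e2).trans hAA)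
    ((hw _ e3).trans hAA) ((hw _ e4).trans hAA) ((hw _ e5).trans hAA) ((hw _ e6).trans hAA) ((hw _ e7).trans hAA) ((hw _ e8).trans hAA)
    ((hw _ e9).trans hAA) T r f hT
  refine h.trans ?_
  have h15 : A0 ^ 15 = D.s ^ (-(15 * E0)) := by
    rw [hA0, ← Real.rpow_natCast, ← Real.rpow_mul hs.1.le]
    congr 1
    push_cast
    ring
  have h16 : D.s ^ (-(15 * E0 + 1)) = D.s ^ (-(1 : ℝ)) * D.s ^ (-(15 * E0)) := by
    rw [← Real.rpow_add hs.1]
    congr 1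
    ring
  have h17 : 1000 * A ^ 5 = 3200000000 * A0 ^ 15 := by
    rw [hA]; ring
  rw [h17, h16, h15]
  exact mul_le_mul_of_nonneg_right hsm (Real.rpow_pos_of_pos hs.1 _).le


/-- the final arithmetic of (canon) -/
theorem nm_cn_num {s ek c M K t κ acc pd i a η v w' Z : ℝ} (hs : 0 < s ∧ s < 1) (hek : 0 < ek) (hc0 : 0 ≤ c) (hc : c ≤ ek * s ^ (-Z + acc))
    (hM : 1 ≤ M) (hK : K = s ^ (-κ)) (hKM : 7 * M ≤ K) (hZ : Z = pd * a + ((3 + η) * v + (1 - η) * w')) (hpd : 0 < pd ∧ pd ≤ 4)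
    (hlo : a - 3 * t ≤ i) (ht : 0 < t) (htκ : 13 * t ≤ κ) (hκ : κ = acc / 100) (hacc : 0 < acc) (htG : acc ≤ 1 / t) :
    s ^ (-t) * (c * (2 * M + 1) * (s ^ (-t) * s ^ (pd * i) / ek * ((K * s ^ v) ^ (3 + η) * (K * s ^ w') ^ (1 - η)))) ^ ((2 : ℝ) / 3) + s ^ (1 / t)
      ≤ s ^ (acc / 2) := by
  have hp : ∀ x y : ℝ, s ^ x * s ^ y = s ^ (x + y) := fun x y => (Real.rpow_add hs.1 x y).symm
  have hpos : ∀ x : ℝ, 0 < s ^ x := fun x => Real.rpow_pos_of_pos hs.1 x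
  have hm : ∀ {x y : ℝ}, y ≤ x → s ^ x ≤ s ^ y := fun h => nm_pw hs h
  have hKv : K * s ^ v = s ^ (v - κ) := by rw [hK, hp]; congr 1; ring
  have hKw : K * s ^ w' = s ^ (w' - κ) := by rw [hK, hp]; congr 1; ring
  have hr' : (K * s ^ v) ^ (3 + η) = s ^ ((v - κ) * (3 + η)) := by rw [hKv, ← Real.rpow_mul hs.1.le]
  have hf' : (K * s ^ w') ^ (1 - η) = s ^ ((w' - κ) * (1 - η)) := by rw [hKw, ← Real.rpow_mul hs.1.le]
  rw [hr', hf']
  set P1 : ℝ := s ^ (-t) * s ^ (pd * i) * (s ^ ((v - κ) * (3 + η)) * s ^ ((w' - κ) * (1 - η))) with hP1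
  have hP1pos : 0 < P1 := by
    have := hpos (-t); have := hpos (pd * i); have := hpos ((v - κ) * (3 + η)); have := hpos ((w' - κ) * (1 - η))
    positivity
  have hbd : s ^ (-t) * s ^ (pd * i) / ek * (s ^ ((v - κ) * (3 + η)) * s ^ ((w' - κ) * (1 - η))) = P1 / ek := by
    rw [hP1]; ring
  rw [hbd]
  have h2M : 2 * M + 1 ≤ K := by linarith
  have hX : c * (2 * M + 1) * (P1 / ek) ≤ s ^ (acc - 6 * κ) := by
    calc c * (2 * M + 1) * (P1 / ek) ≤ (ek * s ^ (-Z + acc)) * K * (P1 / ek) := by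
          refine mul_le_mul_of_nonneg_right ?_ (div_pos hP1pos hek).le
          exact mul_le_mul hc h2M (by linarith) (mul_pos hek (hpos _)).le
      _ = s ^ (-Z + acc) * K * P1 := by field_simp
      _ = s ^ (-Z + acc + -κ + (-t + pd * i + ((v - κ) * (3 + η) + (w' - κ) * (1 - η)))) := by
          rw [hP1, hK, hp, hp, hp, hp, hp]
      _ ≤ s ^ (acc - 6 * κ) := by
          refine hm ?_
          rw [hZ]
          have h3 : pd * (a - i) ≤ 4 * (3 * t) := by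
            rcases le_total 0 (a - i) with h | h
            · exact mul_le_mul hpd.2 (by linarith) h (by norm_num)
            · have := mul_nonpos_of_nonneg_of_nonpos hpd.1.le h
              linarith
          nlinarith
  have hX0 : 0 ≤ c * (2 * M + 1) * (P1 / ek) := by
    have := div_pos hP1pos hek
    positivity
  have hX23 := Real.rpow_le_rpow hX0 hX (by norm_num : (0 : ℝ) ≤ 2 / 3)
  rw [← Real.rpow_mul hs.1.le] at hX23
  have h2K : (2 : ℝ) ≤ K := by linarith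
  calc s ^ (-t) * (c * (2 * M + 1) * (P1 / ek)) ^ ((2 : ℝ) / 3) + s ^ (1 / t)
      ≤ s ^ (-t) * s ^ ((acc - 6 * κ) * (2 / 3)) + s ^ (1 / t) := by
        have := mul_le_mul_of_nonneg_left hX23 (hpos (-t)).le
        linarith
    _ ≤ s ^ (2 * acc / 3 - 5 * κ) + s ^ (2 * acc / 3 - 5 * κ) := by
        rw [hp]
        exact add_le_add (hm (by linarith)) (hm (by linarith))
    _ = 2 * s ^ (2 * acc / 3 - 5 * κ) := by ring
    _ ≤ K * s ^ (2 * acc / 3 - 5 * κ) := mul_le_mul_of_nonneg_right h2K (hpos _).le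
    _ = s ^ (-κ + (2 * acc / 3 - 5 * κ)) := by rw [hK, hp]
    _ ≤ s ^ (acc / 2) := hm (by rw [hκ]; linarith)

/-- **X2 = (canon)** -/
theorem nm_cn_canon (π : SfPar) (hπ : π.Valid) (C0 τ κ0 : ℝ) (q : NmQ) (hq : q.Fam π) (a v : ℝ) (hd : q.Dom π a v) :
    NmA π C0 τ κ0 fun acc D => ∀ LL : Finset NmNm, (LL.card : ℝ) ≤ D.ek * D.s ^ (-(q.Z π a v) + acc) →
      (D.P 1).pr (fun ω => D.nm π q a v ω ∈ LL) ≤ D.s ^ (acc / 2) := by
  intro acc hacc
  obtain ⟨ha0, haD, hv0, hhyb⟩ := hd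
  have ha1 : a ≤ 1 := haD.trans (nm_cn_De_le hq)
  set κ : ℝ := acc / 100 with hκ
  have hκ0 : 0 < κ := by positivity
  set w' : ℝ := q.w π a v - q.g with hw'
  set E0 : ℝ := |C0| + |a| + |v| + |a + v| + |a + 2 * v| + |q.ds.b a| + |q.ds.b a - a| + |q.l π a v| + |w'| + |a + q.w π a v - q.g|
    + |π.b2 q.ds.De - q.ds.De| with hE0
  have n0 := abs_nonneg C0
  have n1 := abs_nonneg a
  have n2 := abs_nonneg v
  have n3 := abs_nonneg (a + v)
  have n4 := abs_nonneg (a + 2 * v)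
  have n5 := abs_nonneg (q.ds.b a)
  have n6 := abs_nonneg (q.ds.b a - a)
  have n7 := abs_nonneg (q.l π a v)
  have n8 := abs_nonneg w'
  have n9 := abs_nonneg (a + q.w π a v - q.g)
  have n10 := abs_nonneg (π.b2 q.ds.De - q.ds.De)
  have hE00 : 0 ≤ E0 := by positivity
  obtain ⟨t1, ht1, hc1⟩ := nm_cn_const (c := 7) (κ := κ / 2) (by norm_num) (by positivity)
  obtain ⟨t2, ht2, hc2⟩ := nm_cn_const (c := 3200000000) (κ := 1) (by norm_num) (by norm_num)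
  set G : ℝ := 30 * E0 + 10 + 2 * v + |w'| + acc with hG
  have hG0 : 0 < G := by positivity
  refine ⟨min (min t1 t2) (min (κ / 13) (1 / G)), by positivity, fun D hF _ LL hLL => ?_⟩
  set t : ℝ := min (min t1 t2) (min (κ / 13) (1 / G)) with ht
  have htpos : 0 < t := hF.pos
  have htt1 : t ≤ t1 := (min_le_left _ _).trans (min_le_left _ _)
  have htt2 : t ≤ t2 := (min_le_left _ _).trans (min_le_right _ _)
  have htκ : 13 * t ≤ κ := by
    have : t ≤ κ / 13 := (min_le_right _ _).trans (min_le_left _ _)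
    linarith
  have htG : G ≤ 1 / t := by
    have : t ≤ 1 / G := (min_le_right _ _).trans (min_le_right _ _)
    rw [le_div_iff₀ htpos]
    have h2 := mul_le_mul_of_nonneg_left this hG0.le
    rwa [mul_one_div_cancel hG0.ne'] at h2
  have ht1' : t ≤ 1 / 10 := by
    have h10 : (10 : ℝ) ≤ 1 / t := by linarith
    rw [le_div_iff₀ htpos] at h10
    linarith
  have hD := hF.ok
  have hc := hD.core
  have hs := hc.hs
  set s : ℝ := D.s with hsdef
  have hp : ∀ x y : ℝ, s ^ x * s ^ y = s ^ (x + y) := fun x y => (Real.rpow_add hs.1 x y).symm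
  have hpos : ∀ x : ℝ, 0 < s ^ x := fun x => Real.rpow_pos_of_pos hs.1 x
  have hm : ∀ {x y : ℝ}, y ≤ x → s ^ x ≤ s ^ y := fun h => nm_pw hs h
  have h7 : (7 : ℝ) ≤ s ^ (-(κ / 2)) := hc1 s hs.1 (hF.sm.trans htt1)
  have hbig : (3200000000 : ℝ) ≤ s ^ (-(1 : ℝ)) := hc2 s hs.1 (hF.sm.trans htt2)
  -- the gate
  obtain ⟨i, hi, hia⟩ := hF.mesh (max (a - 2 * t) 0) (le_max_right _ _) (max_le (by linarith) (by norm_num))
  rw [abs_le] at hia
  have hlo : a - 3 * t ≤ i := by linarith [le_max_left (a - 2 * t) 0, hia.1]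
  have hup : i ≤ a + t := by
    rcases le_total (a - 2 * t) 0 with h | h
    · rw [max_eq_right h] at hia; linarith [hia.2]
    · rw [max_eq_left h] at hia; linarith [hia.2]
  have hi1 : i < 1 := by
    rcases le_total (a - 2 * t) 0 with h | h
    · rw [max_eq_right h] at hia; linarith [hia.2]
    · rw [max_eq_left h] at hia; linarith [hia.2]
  have hl := nm_len_pos hc hi
  have hll : s ^ (i + t) ≤ D.len i := (hc.hlen.2 i hi).1
  -- the constants
  set M : ℝ := s ^ (-(4 * t)) with hM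
  set E2 : ℝ := s ^ (-(2 * t)) with hE2
  set K : ℝ := s ^ (-κ) with hK
  set S : ℝ := s ^ (-(15 * E0 + 1)) with hS
  set θ : ℝ := s ^ (3 + 2 * v + |w'|) with hθ
  have hM1 : 1 ≤ M := Real.one_le_rpow_of_pos_of_le_one_of_nonpos hs.1 hs.2.le (by linarith)
  have hE21 : 1 ≤ E2 := Real.one_le_rpow_of_pos_of_le_one_of_nonpos hs.1 hs.2.le (by linarith)
  have hE2M : E2 ≤ M := hm (by linarith)
  have hS1 : 1 ≤ S := Real.one_le_rpow_of_pos_of_le_one_of_nonpos hs.1 hs.2.le (by linarith)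
  have hKM : 7 * M ≤ K := by
    have h1 : M ≤ s ^ (-(κ / 2)) := hm (by linarith)
    calc 7 * M ≤ s ^ (-(κ / 2)) * s ^ (-(κ / 2)) := mul_le_mul h7 h1 (hpos _).le (hpos _).le
      _ = K := by rw [hp]; congr 1; ring
  have hK' : 2 * M + 2 * E2 + 3 ≤ K := by linarith
  have haM : s ^ a ≤ M * D.len i := by
    calc s ^ a ≤ s ^ (-(4 * t) + (i + t)) := hm (by linarith)
      _ = M * s ^ (i + t) := (hp _ _).symm
      _ ≤ M * D.len i := mul_le_mul_of_nonneg_left hll (hpos _).le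
  have hdN : D.dN π t ≤ E2 * s ^ w' := by
    unfold SfDoc.dN
    split_ifs with hh
    · have hw0 : w' < 0 := by
        obtain ⟨g0, w0⟩ := hhyb hh
        rw [hw', g0]; linarith
      have : 1 ≤ s ^ w' := Real.one_le_rpow_of_pos_of_le_one_of_nonpos hs.1 hs.2.le hw0.le
      exact le_mul_of_one_le_right (hpos _).le this
    · exact (mul_pos (hpos _) (hpos _)).le
  have hSz : ∀ (ω : D.Row 1) (T : ℝ), |T| ≤ 1 → (nmTs s π q a v (D.nm π q a v ω) T (K * s ^ v) (K * s ^ w')).size ≤ S := fun ω T hT =>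
    nm_cn_sz hc q a v E0 (by linarith) (by linarith) (by linarith) (by linarith) (by linarith) (by linarith) (by linarith) (by linarith)
      (by linarith) (by linarith) (by linarith) hbig ω T _ _ hT
  have hSr : s ^ (-C0) ≤ S := hm (by linarith [le_abs_self C0])
  have hθ0 : 14 * S ^ 2 * s ^ (1 / t) ≤ θ := by
    have h14 : (14 : ℝ) ≤ s ^ (-(1 : ℝ)) := by linarith
    have hS2 : S ^ 2 = s ^ (-(30 * E0 + 2)) := by
      rw [hS, sq, hp]; congr 1; ring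
    rw [hS2]
    calc 14 * s ^ (-(30 * E0 + 2)) * s ^ (1 / t) ≤ s ^ (-(1 : ℝ)) * s ^ (-(30 * E0 + 2)) * s ^ (1 / t) := by
          have := hpos (-(30 * E0 + 2)); have := hpos (1 / t)
          gcongr
      _ = s ^ (-(1 : ℝ) + -(30 * E0 + 2) + 1 / t) := by rw [hp, hp]
      _ ≤ θ := hm (by linarith)
  have hw'a : w' ≤ |w'| := le_abs_self _
  have hw'b : -|w'| ≤ w' := neg_abs_le _
  have θ1 : θ ≤ s ^ v := hm (by linarith)
  have θ2 : θ ≤ D.len i * s ^ v := by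
    calc θ ≤ s ^ (i + t + v) := hm (by linarith)
      _ = s ^ (i + t) * s ^ v := (hp _ _).symm
      _ ≤ D.len i * s ^ v := mul_le_mul_of_nonneg_right hll (hpos _).le
  have θ3 : θ ≤ D.len i * (s ^ v) ^ 2 := by
    calc θ ≤ s ^ (i + t + (v + v)) := hm (by linarith)
      _ = s ^ (i + t) * (s ^ v) ^ 2 := by rw [sq, hp, hp]
      _ ≤ D.len i * (s ^ v) ^ 2 := mul_le_mul_of_nonneg_right hll (by positivity)
  have θ4 : θ ≤ s ^ w' := hm (by linarith)
  have θ5 : θ ≤ D.len i * s ^ w' := by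
    calc θ ≤ s ^ (i + t + w') := hm (by linarith)
      _ = s ^ (i + t) * s ^ w' := (hp _ _).symm
      _ ≤ D.len i * s ^ w' := mul_le_mul_of_nonneg_right hll (hpos _).le
  have hgeo := nm_cn_geo hD hπ htpos q a v hi hi1 M K S θ E2 hM1 haM hS1 hSz hSr hK' hdN (hpos _).le hθ0 θ1 θ2 θ3 θ4 θ5
  have hKv : K * s ^ v = s ^ (v - κ) := by rw [hK, hp]; congr 1; ring
  have hKw : K * s ^ w' = s ^ (w' - κ) := by rw [hK, hp]; congr 1; ring
  -- admissibility
  have hadm : ∀ (ω : D.Row 1) (ρ : D.Row i), D.Adm π t i (nmTs s π q a v (D.nm π q a v ω) (D.T i ρ) (K * s ^ v) (K * s ^ w')) := by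
    intro ω ρ
    have hown := hc.own i hi ρ
    have hTabs : |D.T i ρ| ≤ 1 := by
      rw [abs_le]; constructor <;> linarith [hown.2.2.2.1, hown.2.2.2.2]
    refine ⟨?_, ?_, ?_, ?_, ?_, ?_⟩
    · show s ^ (1 / t) ≤ K * s ^ v
      rw [hKv]; exact hm (by linarith)
    · show K * s ^ v ≤ s ^ (-(1 / t))
      rw [hKv]; exact hm (by linarith)
    · show s ^ (1 / t) ≤ K * s ^ w'
      rw [hKw]; exact hm (by linarith)
    · show K * s ^ w' ≤ s ^ (-(1 / t))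
      rw [hKw]; exact hm (by linarith)
    · exact (hSz ω _ hTabs).trans (hm (by linarith))
    · intro hh
      show D.f i ≤ K * s ^ w'
      have hw0 : w' < 0 := by
        obtain ⟨g0, w0⟩ := hhyb hh
        rw [hw', g0]; linarith
      have hn : π.n i = (1 - i) / 2 := by
        unfold SfPar.n
        rw [hπ.pl hh]; ring
      rw [hKw]
      refine ((hD.aff.hf i hi).2).trans (hm ?_)
      rw [hn]; linarith
  have hcore := nm_cn_core hc q a v hi hi1 (K * s ^ v) (K * s ^ w') M (mul_pos (hpos _) (hpos _)).le (mul_pos (hpos _) (hpos _)).le (by linarith)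
    (fun ρ ω h => (hgeo ρ ω h).1) hadm (fun ρ ω h => (hgeo ρ ω h).2) LL
  have hek : 0 < D.ek := lt_of_lt_of_le (hpos _) hc.hek.1
  exact hcore.trans (nm_cn_num hs hek (Nat.cast_nonneg _) hLL hM1 hK hKM rfl ⟨by linarith [hπ.p1.1, hπ.d1.1], by linarith [hπ.p1.2, hπ.d1.2]⟩ hlo htpos htκ hκ hacc
    (by linarith))

end

end Claimed.Agent.R256
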