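import Claimed.Agent.R256.Nm.Can.Test
import Claimed.Agent.R256.Nm.Pred.Doc

/-!
# Row 256 (S0496), unit NM, sub-block CAN, file 2: UNION BOUND, `reg`, `sp`      (helper118; prefix `nm_cn_`)

`nm_cn_core` : if the ancestors at the gate `i < 1` of the final rows with the name `c` lie in the tests `nmTs .. c T r f` (`H1`), which are admissible (`H2`), at `≤ 2 M + 1` times (`H3`, `grid`), then
`P_1 (𝒞 ∈ LL) ≤ s^(-t) (|LL| (2 M + 1) · s^(-t) s^((p+d) i) / ek · r^(3+η) f^(1-η))^(2/3) + s^(1/t)`.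
-/

set_option autoImplicit false

namespace Claimed.Agent.R256

open Claimed.Agent.R255
open Classical

noncomputable section

variable {D : SfDoc} {π : SfPar} {C0 t : ℝ}

theorem nm_cn_core (hD : D.Core π C0 t) (q : NmQ) (a v : ℝ) {i : ℝ} (hi : i ∈ D.G) (hi1 : i < 1) (r f M : ℝ) (hr : 0 ≤ r) (hf : 0 ≤ f) (hM : 0 ≤ M)
    (H1 : ∀ ρ ω, D.Conn i 1 ρ ω → (nmTs D.s π q a v (D.nm π q a v ω) (D.T i ρ) r f).Mem (D.len i) (D.ray i ρ))
    (H2 : ∀ (ω : D.Row 1) (ρ : D.Row i), D.Adm π t i (nmTs D.s π q a v (D.nm π q a v ω) (D.T i ρ) r f))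
    (H3 : ∀ ρ ω, D.Conn i 1 ρ ω → |D.T i ρ - (D.nm π q a v ω).tv D.s a| ≤ M * D.len i)
    (LL : Finset NmNm) :
    (D.P 1).pr (fun ω => D.nm π q a v ω ∈ LL) ≤
      D.s ^ (-t) * ((LL.card : ℝ) * (2 * M + 1) * (D.s ^ (-t) * D.s ^ ((π.p + π.d) * i) / D.ek * (r ^ (3 + π.η) * f ^ (1 - π.η)))) ^ ((2 : ℝ) / 3)
        + D.s ^ (1 / t) := by
  have hs := hD.hs
  have hlen := nm_len_pos hD hi
  have hek : 0 < D.ek := lt_of_lt_of_le (Real.rpow_pos_of_pos hs.1 _) hD.hek.1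
  set bd : ℝ := D.s ^ (-t) * D.s ^ ((π.p + π.d) * i) / D.ek * (r ^ (3 + π.η) * f ^ (1 - π.η)) with hbd
  have hbd0 : 0 ≤ bd := by
    have h1 : 0 ≤ r ^ (3 + π.η) := Real.rpow_nonneg hr _
    have h2 : 0 ≤ f ^ (1 - π.η) := Real.rpow_nonneg hf _
    have h3 : 0 < D.s ^ (-t) := Real.rpow_pos_of_pos hs.1 _
    have h4 : 0 < D.s ^ ((π.p + π.d) * i) := Real.rpow_pos_of_pos hs.1 _
    positivity
  -- realised names, compatible times
  set LL' : Finset NmNm := LL.filter (fun c => ∃ ω, D.nm π q a v ω = c) with hLL'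
  set Tm : NmNm → Finset ℝ := fun c => (Finset.univ.image (D.T i)).filter (fun T => |T - c.tv D.s a| ≤ M * D.len i) with hTm
  set S : D.Row i → Prop := fun ρ => ∃ c ∈ LL', ∃ T ∈ Tm c, D.T i ρ = T ∧ (nmTs D.s π q a v c T r f).Mem (D.len i) (D.ray i ρ) with hS
  have hPred : D.Pred i 1 (fun ω => D.nm π q a v ω ∈ LL) S := by
    intro ω hω ρ hc
    refine ⟨D.nm π q a v ω, Finset.mem_filter.2 ⟨hω, ω, rfl⟩, D.T i ρ, Finset.mem_filter.2 ⟨Finset.mem_image.2 ⟨ρ, Finset.mem_univ _, rfl⟩, H3 ρ ω hc⟩, rfl, H1 ρ ω hc⟩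
  have hsp := hD.sp i hi 1 hD.gate.1 hi1 _ S hPred
  -- the number of times
  have hcard : ∀ c, ((Tm c).card : ℝ) ≤ 2 * M + 1 := by
    intro c
    have h := nm_cn_pack (Tm c) (D.len i) (2 * M * D.len i) (c.tv D.s a - M * D.len i) hlen (by positivity) ?_ ?_
    · have e : 2 * M * D.len i / D.len i = 2 * M := by field_simp
      rwa [e] at h
    · intro x hx y hy hxy
      obtain ⟨ρ, -, rfl⟩ := Finset.mem_image.1 (Finset.mem_filter.1 hx).1
      obtain ⟨ρ', -, rfl⟩ := Finset.mem_image.1 (Finset.mem_filter.1 hy).1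
      exact hD.grid i hi ρ ρ' hxy
    · intro x hx
      have := abs_le.1 (Finset.mem_filter.1 hx).2
      constructor <;> linarith [this.1, this.2]
  -- one test
  have hone : ∀ c ∈ LL', ∀ T ∈ Tm c, (D.P i).pr (fun ρ => D.T i ρ = T ∧ (nmTs D.s π q a v c T r f).Mem (D.len i) (D.ray i ρ)) ≤ bd := by
    intro c hc T hT
    obtain ⟨ω, rfl⟩ := (Finset.mem_filter.1 hc).2
    obtain ⟨ρ, -, rfl⟩ := Finset.mem_image.1 (Finset.mem_filter.1 hT).1
    exact hD.reg i hi _ (H2 ω ρ)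
  have hprS : (D.P i).pr S ≤ (LL.card : ℝ) * (2 * M + 1) * bd := by
    calc (D.P i).pr S ≤ ∑ c ∈ LL', (D.P i).pr (fun ρ => ∃ T ∈ Tm c, D.T i ρ = T ∧ (nmTs D.s π q a v c T r f).Mem (D.len i) (D.ray i ρ)) :=
          ent_pr_exists_le (D.P i) LL' _
      _ ≤ ∑ c ∈ LL', (2 * M + 1) * bd := by
          refine Finset.sum_le_sum fun c hc => ?_
          calc (D.P i).pr (fun ρ => ∃ T ∈ Tm c, D.T i ρ = T ∧ (nmTs D.s π q a v c T r f).Mem (D.len i) (D.ray i ρ))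
              ≤ ∑ T ∈ Tm c, (D.P i).pr (fun ρ => D.T i ρ = T ∧ (nmTs D.s π q a v c T r f).Mem (D.len i) (D.ray i ρ)) :=
                ent_pr_exists_le (D.P i) (Tm c) _
            _ ≤ ∑ _T ∈ Tm c, bd := Finset.sum_le_sum fun T hT => hone c hc T hT
            _ = ((Tm c).card : ℝ) * bd := by rw [Finset.sum_const, nsmul_eq_mul]
            _ ≤ (2 * M + 1) * bd := mul_le_mul_of_nonneg_right (hcard c) hbd0
      _ = (LL'.card : ℝ) * ((2 * M + 1) * bd) := by rw [Finset.sum_const, nsmul_eq_mul]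
      _ ≤ (LL.card : ℝ) * ((2 * M + 1) * bd) := by
          refine mul_le_mul_of_nonneg_right ?_ (by positivity)
          exact_mod_cast Finset.card_le_card (Finset.filter_subset _ _)
      _ = _ := by ring
  refine hsp.trans ?_
  have h5 : (D.P i).pr S ^ ((2 : ℝ) / 3) ≤ ((LL.card : ℝ) * (2 * M + 1) * bd) ^ ((2 : ℝ) / 3) :=
    Real.rpow_le_rpow (ent_pr_nonneg _ _) hprS (by norm_num)
  have h6 : 0 < D.s ^ (-t) := Real.rpow_pos_of_pos hs.1 _
  have := mul_le_mul_of_nonneg_left h5 h6.le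
  linarith

end

end Claimed.Agent.R256
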