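import Claimed.Agent.R256.Nm.Can.Core

/-!
# Row 256 (S0496), unit NM, sub-block CAN, file 3: THE ANCESTORS OF A NAME LIE IN ITS TESTS      (helper118; prefix `nm_cn_`)

* `nm_cn_kbar`, `nm_cn_raw_z` : `k̄` is decoded from the name; the residual ray.
* `nm_cn_raw`  : the raw datum is polynomial (`bdd`, `own`).
* `nm_cn_geo`  : `H1`, `H3` of `nm_cn_core` (`nm_cn_cell` on the final ray, `nm_conn_ray`, `nm_cn_pert`), widths `K s^v`, `K s^(w-g)`.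
-/

set_option autoImplicit false

namespace Claimed.Agent.R256

open Claimed.Agent.R255
open Classical

noncomputable section

variable {D : SfDoc} {π : SfPar} {C0 τ κ0 t : ℝ}

theorem nm_cn_kbar (D : SfDoc) (π : SfPar) (ds : NmDs) (ω : D.Row 1) :
    D.kbar π ds ω = nmVal D.s (π.b2 ds.De - ds.De) (D.raw π ds ω).kb := by
  unfold SfDoc.kbar SfDoc.raw
  by_cases hg : ds.glob = true
  · simp only [hg, if_true]
    rfl
  · simp only [hg]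
    simp [nmVal]

theorem nm_cn_raw_z (D : SfDoc) (π : SfPar) (ds : NmDs) (ω : D.Row 1) :
    (D.raw π ds ω).z = (D.ray 1 ω).res (nmVal D.s (π.b2 ds.De - ds.De) (D.raw π ds ω).kb) := by
  rw [← nm_cn_kbar]
  rfl

theorem nm_cn_aux_e_ray {z : SfRay} {A : ℝ} (h : z.size ≤ A) : |z.X| ≤ A ∧ |z.B| ≤ A ∧ |z.Y| ≤ A ∧ |z.N| ≤ A ∧ |z.D| ≤ A := by
  unfold SfRay.size at h
  simp only [max_le_iff] at h
  exact h

theorem nm_cn_aux_e_test {Q : SfTest} {A : ℝ} (h : Q.size ≤ A) :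
    |Q.x| ≤ A ∧ |Q.b| ≤ A ∧ |Q.y| ≤ A ∧ |Q.c| ≤ A ∧ |Q.d| ≤ A ∧ |Q.al| ≤ A ∧ |Q.be| ≤ A ∧ |Q.K| ≤ A := by
  unfold SfTest.size at h
  simp only [max_le_iff] at h
  exact h

theorem nm_cn_aux_e_mul {a b A B : ℝ} (ha : |a| ≤ A) (hb : |b| ≤ B) : |a * b| ≤ A * B := by
  rw [abs_mul]
  exact mul_le_mul ha hb (abs_nonneg _) ((abs_nonneg _).trans ha)

/-- the encountered label is polynomial, its time lies in `[0,1]` -/
theorem nm_cn_labAt (hD : D.Core π C0 t) (i : ℝ) (ω : D.Row 1) :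
    (D.labAt i ω).size ≤ D.s ^ (-C0) ∧ 0 ≤ (D.labAt i ω).T ∧ (D.labAt i ω).T ≤ 1 := by
  have key : ∀ j ∈ D.G, ∀ ρ : D.Row j, (D.lab j ρ).size ≤ D.s ^ (-C0) ∧ 0 ≤ (D.lab j ρ).T ∧ (D.lab j ρ).T ≤ 1 := by
    intro j hj ρ
    have h1 := (hD.bdd j hj ρ).2
    have h2 := hD.own j hj ρ
    have h3 := nm_len_pos hD hj
    have e : (D.lab j ρ).T = D.T j ρ := rfl
    refine ⟨h1, by rw [e]; exact h2.2.2.2.1, by rw [e]; linarith [h2.2.2.2.2]⟩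
  unfold SfDoc.labAt
  split_ifs with h1 h2
  · exact key 1 hD.gate.1 ω
  · exact key _ (nm_gt_mem D ⟨1, hD.gate.1⟩ i) _
  · refine ⟨?_, le_rfl, zero_le_one⟩
    have : sfZero.size = 0 := by simp [sfZero, SfTest.size]
    rw [this]
    exact (Real.rpow_pos_of_pos hD.hs.1 _).le

/-- **the raw datum is polynomial**.      LEAF L-256-NM-CAN-E (150 l.): `bdd` at the gate `1`, `nm_cn_labAt`, `nm_rep_abs` for `k̄`: `|k̄| ≤ 2 A0`;
`|z.N| ≤ 7 A0³`, `|z.D| ≤ 3 A0³`, `|P| ≤ 11 A0²` (`Pd = al + 2 be X - 2 K B_T`, `|B_T| ≤ 2 A0`; `Pc`), `|be|, |K| ≤ 3 A0`. -/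
theorem nm_cn_raw (hD : D.Core π C0 t) (ds : NmDs) (ω : D.Row 1) (A0 : ℝ) (hA : 1 ≤ A0) (h1 : D.s ^ (-C0) ≤ A0)
    (h2 : D.s ^ (π.b2 ds.De - ds.De) ≤ A0) :
    (D.raw π ds ω).size ≤ 20 * A0 ^ 3 ∧ |(D.raw π ds ω).T| ≤ 1 ∧ |(D.raw π ds ω).Te| ≤ 1 ∧
      |nmVal D.s (π.b2 ds.De - ds.De) (D.raw π ds ω).kb| ≤ 2 * A0 := by
  obtain ⟨l1, l2, l3⟩ := nm_cn_labAt hD ds.De ω
  obtain ⟨qx, qb, qy, qc, qd, qal, qbe, qK⟩ := nm_cn_aux_e_test (l1.trans h1)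
  obtain ⟨zX, zB, zY, zN, zD⟩ := nm_cn_aux_e_ray ((hD.bdd 1 hD.gate.1 ω).1.trans h1)
  have hown := hD.own 1 hD.gate.1 ω
  have hlen := nm_len_pos hD hD.gate.1
  obtain ⟨L, hL⟩ : ∃ L, L = D.labAt ds.De ω := ⟨_, rfl⟩
  obtain ⟨z, hz⟩ : ∃ z, z = D.ray 1 ω := ⟨_, rfl⟩
  obtain ⟨kb, hkb⟩ : ∃ kb, kb = D.kbar π ds ω := ⟨_, rfl⟩
  rw [← hL] at l2 l3 qx qb qy qc qd qal qbe qK
  rw [← hz] at zX zB zY zN zD
  have hA0 : 0 ≤ A0 := by linarith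
  have hA2 : A0 ≤ A0 ^ 2 := by nlinarith
  have hA3 : A0 ^ 2 ≤ A0 ^ 3 := by nlinarith [sq_nonneg A0]
  have hk : |kb| ≤ 2 * A0 := by
    rw [hkb]
    unfold SfDoc.kbar
    split_ifs
    · have h3 := nm_rep_abs hD.hs.1 hD.hs.2 (π.b2 ds.De - ds.De) (D.labAt ds.De ω).K
      rw [← hL] at h3 ⊢
      have h4 : |nmRep D.s (π.b2 ds.De - ds.De) L.K| ≤ |L.K| + |L.K - nmRep D.s (π.b2 ds.De - ds.De) L.K| := by
        have := abs_sub L.K (L.K - nmRep D.s (π.b2 ds.De - ds.De) L.K)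
        simpa using this
      linarith
    · simp only [abs_zero]; linarith
  have hT : |L.T| ≤ 1 := by rw [abs_le]; constructor <;> linarith
  have hBt : |z.Bt L.T| ≤ 2 * A0 := by
    unfold SfRay.Bt
    have a1 := nm_cn_aux_e_mul hT zX
    have a2 := abs_add_le z.B (L.T * z.X)
    linarith
  -- the five entries
  have eN : |z.N - kb * (z.Y - 2 * z.X * z.B)| ≤ 7 * A0 ^ 3 := by
    have a1 : |2 * z.X * z.B| ≤ 2 * A0 * A0 := by
      have := nm_cn_aux_e_mul (nm_cn_aux_e_mul (show |(2:ℝ)| ≤ 2 by simp) zX) zB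
      exact this
    have a2 : |z.Y - 2 * z.X * z.B| ≤ A0 + 2 * A0 * A0 := (abs_sub _ _).trans (by linarith)
    have a3 := nm_cn_aux_e_mul hk a2
    have a4 := abs_sub z.N (kb * (z.Y - 2 * z.X * z.B))
    linarith
  have eD : |z.D + kb * z.B ^ 2| ≤ 3 * A0 ^ 3 := by
    have a1 : |z.B ^ 2| ≤ A0 * A0 := by rw [sq]; exact nm_cn_aux_e_mul zB zB
    have a3 := nm_cn_aux_e_mul hk a1
    have a4 := abs_add_le z.D (kb * z.B ^ 2)
    linarith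
  have ePd : |L.Pd z| ≤ 7 * A0 ^ 2 := by
    unfold SfTest.Pd
    have a1 : |2 * L.be * z.X| ≤ 2 * A0 * A0 := nm_cn_aux_e_mul (nm_cn_aux_e_mul (show |(2:ℝ)| ≤ 2 by simp) qbe) zX
    have a2 : |2 * L.K * z.Bt L.T| ≤ 2 * A0 * (2 * A0) := nm_cn_aux_e_mul (nm_cn_aux_e_mul (show |(2:ℝ)| ≤ 2 by simp) qK) hBt
    have a3 := abs_sub (L.al + 2 * L.be * z.X) (2 * L.K * z.Bt L.T)
    have a4 := abs_add_le L.al (2 * L.be * z.X)
    linarith
  have ePc : |L.Pc| ≤ 7 * A0 ^ 2 := by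
    unfold SfTest.Pc
    have a1 : |2 * L.be * L.x| ≤ 2 * A0 * A0 := nm_cn_aux_e_mul (nm_cn_aux_e_mul (show |(2:ℝ)| ≤ 2 by simp) qbe) qx
    have a2 : |2 * L.K * L.b| ≤ 2 * A0 * A0 := nm_cn_aux_e_mul (nm_cn_aux_e_mul (show |(2:ℝ)| ≤ 2 by simp) qK) qb
    have a3 := abs_sub (L.al + 2 * L.be * L.x) (2 * L.K * L.b)
    have a4 := abs_add_le L.al (2 * L.be * L.x)
    linarith
  have ekB : |2 * kb * z.B| ≤ 2 * (2 * A0) * A0 := nm_cn_aux_e_mul (nm_cn_aux_e_mul (show |(2:ℝ)| ≤ 2 by simp) hk) zB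
  have eP : |(D.raw π ds ω).P| ≤ 11 * A0 ^ 2 := by
    have e : (D.raw π ds ω).P = (match ds.cut with
      | NmCut.none => L.Pc
      | _ => L.Pd z) + 2 * kb * z.B := by rw [hL, hz, hkb]; rfl
    rw [e]
    have a0 : |(match ds.cut with
      | NmCut.none => L.Pc
      | _ => L.Pd z)| ≤ 7 * A0 ^ 2 := by
      cases ds.cut <;> simp only <;> assumption
    refine (abs_add_le _ _).trans ?_
    linarith
  have ebe : |L.be - kb * L.T| ≤ 3 * A0 := by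
    have a1 := nm_cn_aux_e_mul hk hT
    have a2 := abs_sub L.be (kb * L.T)
    linarith
  have eK : |L.K - kb| ≤ 3 * A0 := by
    have a2 := abs_sub L.K kb
    linarith
  refine ⟨?_, ?_, ?_, ?_⟩
  · have e1 : (D.raw π ds ω).z = ⟨z.X, z.B, z.Y, z.N - kb * (z.Y - 2 * z.X * z.B), z.D + kb * z.B ^ 2⟩ := by rw [hz, hkb]; rfl
    have e2 : (D.raw π ds ω).be = L.be - kb * L.T := by rw [hL, hkb]; rfl
    have e3 : (D.raw π ds ω).K = L.K - kb := by rw [hL, hkb]; rfl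
    unfold NmRaw.size
    rw [e1, e2, e3]
    unfold SfRay.size
    simp only [max_le_iff]
    refine ⟨⟨?_, ?_, ?_, ?_, ?_⟩, ?_, ?_, ?_⟩ <;> linarith
  · show |D.T 1 ω| ≤ 1
    rw [abs_le]; constructor <;> linarith [hown.2.2.2.1, hown.2.2.2.2]
  · show |(D.labAt ds.De ω).T| ≤ 1
    rw [← hL]; exact hT
  · rw [← nm_cn_kbar, ← hkb]; exact hk

theorem nm_cn_bdist_comm (z z' : SfRay) : z.bdist z' = z'.bdist z := by
  unfold SfRay.bdist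
  rw [abs_sub_comm z.X, abs_sub_comm z.B, abs_sub_comm z.Y]

/-- **`H1`, `H3`** -/
theorem nm_cn_geo (hD : D.Ok π C0 τ κ0 t) (hπ : π.Valid) (ht : 0 < t) (q : NmQ) (a v : ℝ) {i : ℝ} (hi : i ∈ D.G) (hi1 : i < 1)
    (M K S θ E2 : ℝ) (hM : 1 ≤ M) (haM : D.s ^ a ≤ M * D.len i) (hS : 1 ≤ S)
    (hSz : ∀ (ω : D.Row 1) (T : ℝ), |T| ≤ 1 → (nmTs D.s π q a v (D.nm π q a v ω) T (K * D.s ^ v) (K * D.s ^ (q.w π a v - q.g))).size ≤ S)
    (hSr : D.s ^ (-C0) ≤ S)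
    (hK : 2 * M + 2 * E2 + 3 ≤ K) (hE2 : D.dN π t ≤ E2 * D.s ^ (q.w π a v - q.g)) (hE20 : 0 ≤ E2)
    (hθ : 14 * S ^ 2 * D.s ^ (1 / t) ≤ θ) (θ1 : θ ≤ D.s ^ v) (θ2 : θ ≤ D.len i * D.s ^ v) (θ3 : θ ≤ D.len i * (D.s ^ v) ^ 2)
    (θ4 : θ ≤ D.s ^ (q.w π a v - q.g)) (θ5 : θ ≤ D.len i * D.s ^ (q.w π a v - q.g))
    (ρ : D.Row i) (ω : D.Row 1) (h : D.Conn i 1 ρ ω) :
    (nmTs D.s π q a v (D.nm π q a v ω) (D.T i ρ) (K * D.s ^ v) (K * D.s ^ (q.w π a v - q.g))).Mem (D.len i) (D.ray i ρ) ∧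
      |D.T i ρ - (D.nm π q a v ω).tv D.s a| ≤ M * D.len i := by
  have hc := hD.core
  have hs := hc.hs
  have hl := nm_len_pos hc hi
  obtain ⟨c1, c2, c3, c4, c5⟩ := nm_conn_ray hD hπ ht hi hi1 h
  set l := D.len i with hldef
  set T := D.T i ρ with hTdef
  set x := D.raw π q.ds ω with hx
  set sv := D.s ^ v with hsv
  set sw := D.s ^ (q.w π a v - q.g) with hsw
  have hsv0 : 0 < sv := Real.rpow_pos_of_pos hs.1 _
  have hsw0 : 0 < sw := Real.rpow_pos_of_pos hs.1 _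
  -- the time
  have htv : (D.nm π q a v ω).tv D.s a = x.ta D.s a := rfl
  have hxT : x.T = D.T 1 ω := rfl
  have hta1 : x.ta D.s a ≤ D.T 1 ω := nm_rep_le _ _ _
  have hta2 : D.T 1 ω < x.ta D.s a + D.s ^ a := by
    have h1 := nm_rep_lt D.s a x.T
    have h2 := nm_wd_le hs.1 hs.2 a
    have h3 : x.ta D.s a = nmRep D.s a x.T := rfl
    rw [h3, ← hxT]; linarith
  have hlM : l ≤ M * l := le_mul_of_one_le_left hl.le hM
  have hT3 : |T - x.ta D.s a| ≤ M * l := by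
    rw [abs_le]; constructor <;> linarith
  refine ⟨?_, by rw [htv]; exact hT3⟩
  -- the final ray
  obtain ⟨g1, g2, g3, g4, g5⟩ := nm_cn_cell hs.1 hs.2 π q a v x (D.ray 1 ω) (nm_cn_raw_z D π q.ds ω) T l M (K * sv) (K * sw) hl hM hT3 haM
  have hown := hc.own i hi ρ
  have hT01 : 0 ≤ T ∧ T ≤ 1 := ⟨hown.2.2.2.1, by linarith [hown.2.2.2.2]⟩
  have hTabs : |T| ≤ 1 := by rw [abs_le]; constructor <;> linarith [hT01.1, hT01.2]
  set Q := nmTs D.s π q a v (x.name D.s π q a v) T (K * sv) (K * sw) with hQ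
  have hQT : Q.T = T := rfl
  have hQs : Q.size ≤ S := hSz ω T hTabs
  have hz0 : (D.ray 1 ω).size ≤ S := ((hc.bdd 1 hc.gate.1 ω).1).trans hSr
  have hz : (D.ray i ρ).size ≤ S := ((hc.bdd i hi ρ).1).trans hSr
  have hε : 0 ≤ D.s ^ (1 / t) := (Real.rpow_pos_of_pos hs.1 _).le
  obtain ⟨p1, p2, p3, p4, p5⟩ := nm_cn_pert Q (D.ray 1 ω) (D.ray i ρ) S (D.s ^ (1 / t)) (D.dN π t) (2 * l * D.dN π t) (by rw [hQT]; exact hT01) hS hQs hz0 hz hε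
    (by rw [nm_cn_bdist_comm]; exact c3) (by rw [abs_sub_comm]; exact c4) (by rw [hQT, abs_sub_comm]; exact c5)
  rw [hQT] at p2
  set ε := D.s ^ (1 / t) with hεdef
  -- the negligible terms
  have hS21 : 1 ≤ S ^ 2 := one_le_pow₀ hS
  have hS2 : S ≤ S ^ 2 := by
    have := mul_le_mul_of_nonneg_right hS (by linarith : (0 : ℝ) ≤ S)
    calc S = 1 * S := (one_mul S).symm
      _ ≤ S * S := this
      _ = S ^ 2 := (sq S).symm
  have u1 : ε ≤ S ^ 2 * ε := le_mul_of_one_le_left hε hS21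
  have u2 : S * ε ≤ S ^ 2 * ε := mul_le_mul_of_nonneg_right hS2 hε
  have hθ' : 14 * (S ^ 2 * ε) ≤ θ := by linarith [hθ]
  have e1 : ε ≤ θ := by linarith
  have e2 : 2 * ε ≤ θ := by linarith
  have e3 : 7 * S * ε ≤ θ := by linarith
  have hK1 : 1 ≤ K := by linarith
  have hKK : K ≤ K ^ 2 := by
    have := mul_le_mul_of_nonneg_right hK1 (by linarith : (0 : ℝ) ≤ K)
    calc K = 1 * K := (one_mul K).symm
      _ ≤ K * K := this
      _ = K ^ 2 := (sq K).symm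
  have hdN := nm_dN_nonneg D π hs.1 t
  rw [nm_cn_mem_iff]
  refine ⟨?_, ?_, ?_, ?_, ?_⟩
  · show |(D.ray i ρ).X - Q.x| ≤ K * sv
    have : 2 * sv ≤ K * sv := mul_le_mul_of_nonneg_right (by linarith) hsv0.le
    linarith
  · show |(D.ray i ρ).Bt T - Q.b| ≤ l * (K * sv)
    have : (2 * M + 1) * (l * sv) ≤ K * (l * sv) := mul_le_mul_of_nonneg_right (by linarith) (by positivity)
    linarith
  · show |Q.eQ (D.ray i ρ)| ≤ l * (K * sv) ^ 2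
    have : (2 * M + 1) * (l * sv ^ 2) ≤ K ^ 2 * (l * sv ^ 2) := mul_le_mul_of_nonneg_right (by linarith) (by positivity)
    linarith
  · show |Q.eN (D.ray i ρ)| ≤ K * sw
    have : (2 + E2) * sw ≤ K * sw := mul_le_mul_of_nonneg_right (by linarith) hsw0.le
    linarith
  · show |Q.eD (D.ray i ρ)| ≤ l * (K * sw)
    have h7 : (2 * M + 2 * E2 + 1) * (l * sw) ≤ K * (l * sw) := mul_le_mul_of_nonneg_right (by linarith) (by positivity)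
    have h8 : 2 * l * D.dN π t ≤ 2 * l * (E2 * sw) := mul_le_mul_of_nonneg_left hE2 (by positivity)
    linarith

end

end Claimed.Agent.R256
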