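import Claimed.Agent.R256.Nm.Base
import Claimed.Agent.R256.Nm.Pred.Geo

/-!
# Row 256 (S0496), unit NM, sub-block CAN (Prop. names:canonical-entropy, (canon); 04-canonical-names.tex l.242-260), file 1: THE REGULARITY TEST OF A NAME      (helper118; prefix `nm_cn_`)

PAPER-FREE, no `SfDoc`.
* `nmTs s π q a v c T r f : SfTest` = the cylinder test, at the time `T`, whose centre and shear are DECODED from the name `c` of depth `(a,v)` (global bin added back), widths `r`, `f`.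
* `nm_cn_cell`  : a raw datum with the name `c` lies in it, with the widths `s^v`, `s^(w-g)` up to the factor `2 M`, `M l ≥ max (s^a, |T - t_a|)`.      IDENTITIES (`τ = T - t_a`; by `ring`):
     `B_T - b = (B_{t_a} - B_v) + τ (X - X_v)`,     `Y_T - y - 2 X_v (B_T - b) = ((Y_{t_a} - 2 X_v B_{t_a}) - Y_v) + τ (X - X_v)²`,     `eN = Nres - N_v`,     `eD = (Dres - D_v) + τ (Nres - N_v)`.
* `nm_cn_pert`  : the five expressions of a test move by `ε`, `2 ε`, `7 S ε`, `δN + 14 S² ε`, `δD + 14 S² ε` under a perturbation of the ray.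
* `nm_cn_size`  : the parameters of the test are polynomial in the raw datum.
* `nm_cn_pack`  : `l`-separated reals in an interval of length `L`.
-/

set_option autoImplicit false

namespace Claimed.Agent.R256

open Claimed.Agent.R255
open Classical

noncomputable section

/-- the decoded global bin `k̄` (`0` if the display has none: then `c.kb = 0`) -/
def NmNm.kbv (c : NmNm) (s : ℝ) (π : SfPar) (q : NmQ) : ℝ := nmVal s (π.b2 q.ds.De - q.ds.De) c.kb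

/-- **the regularity test of the name `c`** at the time `T`, widths `r`, `f`, in the ACTUAL frame -/
def nmTs (s : ℝ) (π : SfPar) (q : NmQ) (a v : ℝ) (c : NmNm) (T r f : ℝ) : SfTest where
  T := T
  x := c.Xv s v
  b := c.Bv s a v + (T - c.tv s a) * c.Xv s v
  y := c.Yv s a v + (T - c.tv s a) * c.Xv s v ^ 2 + 2 * c.Xv s v * c.Bv s a v
  c := c.Nv s π q a v
  d := c.Dv s π q a v + (T - c.tv s a) * c.Nv s π q a v
  al := c.Lv s π q a v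
  be := c.Rv s q a + (T - c.tv s a) * c.kv s q a + c.kbv s π q * T
  K := c.kv s q a + c.kbv s π q
  r := r
  f := f

/-- the quadratic base expression of `Mem` (tilted by the centre) -/
def SfTest.eQ (Q : SfTest) (z : SfRay) : ℝ := z.Yt Q.T - Q.y - 2 * Q.x * (z.Bt Q.T - Q.b)

theorem nm_cn_mem_iff (Q : SfTest) (l : ℝ) (z : SfRay) :
    Q.Mem l z ↔ |z.X - Q.x| ≤ Q.r ∧ |z.Bt Q.T - Q.b| ≤ l * Q.r ∧ |Q.eQ z| ≤ l * Q.r ^ 2 ∧ |Q.eN z| ≤ Q.f ∧ |Q.eD z| ≤ l * Q.f := Iff.rfl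

theorem nm_cn_aux_a_sum {e1 τ u w1 w2 M l : ℝ} (h1 : |e1| ≤ w1 * w2) (hτ : |τ| ≤ M * l) (hu : |u| ≤ w2) (hw1 : w1 ≤ M * l) (hw2 : 0 ≤ w2) :
    |e1 + τ * u| ≤ 2 * M * l * w2 := by
  have a1 := nm_abs_mul_le hτ hu
  have a2 : w1 * w2 ≤ M * l * w2 := mul_le_mul_of_nonneg_right hw1 hw2
  calc |e1 + τ * u| ≤ |e1| + |τ * u| := abs_add_le _ _
    _ ≤ M * l * w2 + M * l * w2 := by linarith
    _ = _ := by ring

/-- **a raw datum lies in the test of its name**.      LEAF L-256-NM-CAN-A (120 l.): unfold `nmTs`, `NmRaw.name`, `NmNm.Xv ..` (`nm_rep_val`: the decoded values ARE `nmRep ..` of the raw numbers), `SfRay.res`; the four identities of the header by `ring`;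
`nm_rep_abs` for the six cells; `s^(a+v) = s^a s^v ≤ M l s^v` (`Real.rpow_add`), `|τ| ≤ M l`. -/
theorem nm_cn_cell {s : ℝ} (h0 : 0 < s) (h1 : s < 1) (π : SfPar) (q : NmQ) (a v : ℝ) (x : NmRaw) (z : SfRay)
    (hz : x.z = z.res (nmVal s (π.b2 q.ds.De - q.ds.De) x.kb)) (T l M r f : ℝ) (hl : 0 < l) (hM : 1 ≤ M)
    (hT : |T - x.ta s a| ≤ M * l) (ha : s ^ a ≤ M * l) :
    |z.X - (nmTs s π q a v (x.name s π q a v) T r f).x| ≤ s ^ v ∧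
    |z.Bt T - (nmTs s π q a v (x.name s π q a v) T r f).b| ≤ 2 * M * l * s ^ v ∧
    |(nmTs s π q a v (x.name s π q a v) T r f).eQ z| ≤ 2 * M * l * (s ^ v) ^ 2 ∧
    |(nmTs s π q a v (x.name s π q a v) T r f).eN z| ≤ s ^ (q.w π a v - q.g) ∧
    |(nmTs s π q a v (x.name s π q a v) T r f).eD z| ≤ 2 * M * l * s ^ (q.w π a v - q.g) := by
  have hX : z.X = x.z.X := by rw [hz]; rfl
  have hB : z.B = x.z.B := by rw [hz]; rfl
  have hY : z.Y = x.z.Y := by rw [hz]; rfl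
  have hN : z.N = x.z.N + nmVal s (π.b2 q.ds.De - q.ds.De) x.kb * (x.z.Y - 2 * x.z.X * x.z.B) := by
    rw [hz]
    simp only [SfRay.res]
    ring
  have hD : z.D = x.z.D - nmVal s (π.b2 q.ds.De - q.ds.De) x.kb * x.z.B ^ 2 := by
    rw [hz]
    simp only [SfRay.res]
    ring
  have cX := nm_rep_abs h0 h1 v x.z.X
  have cB := nm_rep_abs h0 h1 (a + v) (x.z.Bt (x.ta s a))
  have cY := nm_rep_abs h0 h1 (a + 2 * v) (x.z.Yt (x.ta s a) - 2 * nmRep s v x.z.X * x.z.Bt (x.ta s a))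
  have cN := nm_rep_abs h0 h1 (q.w π a v - q.g) (x.Nres s π q a v)
  have cD := nm_rep_abs h0 h1 (a + q.w π a v - q.g) (x.Dres s π q a v)
  have eB : s ^ (a + v) = s ^ a * s ^ v := Real.rpow_add h0 _ _
  have eY : s ^ (a + 2 * v) = s ^ a * (s ^ v) ^ 2 := by
    rw [Real.rpow_add h0, two_mul, Real.rpow_add h0, sq]
  have eD : s ^ (a + q.w π a v - q.g) = s ^ a * s ^ (q.w π a v - q.g) := by
    rw [← Real.rpow_add h0]
    congr 1
    ring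
  rw [eB] at cB
  rw [eY] at cY
  rw [eD] at cD
  have hv0 : 0 ≤ s ^ v := (Real.rpow_pos_of_pos h0 _).le
  have hw0 : 0 ≤ s ^ (q.w π a v - q.g) := (Real.rpow_pos_of_pos h0 _).le
  refine ⟨?_, ?_, ?_, ?_, ?_⟩
  · rw [hX]
    exact cX
  · have e : z.Bt T - (nmTs s π q a v (x.name s π q a v) T r f).b
        = (x.z.Bt (x.ta s a) - nmRep s (a + v) (x.z.Bt (x.ta s a))) + (T - x.ta s a) * (x.z.X - nmRep s v x.z.X) := by
      simp only [nmTs, NmRaw.name, NmNm.Bv, NmNm.Xv, NmNm.tv, ← nm_rep_val]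
      generalize nmRep s (a + v) (x.z.Bt (x.ta s a)) = Bv
      simp only [SfRay.Bt, NmRaw.ta, hX, hB]
      ring
    rw [e]
    exact nm_cn_aux_a_sum cB hT cX ha hv0
  · have e : (nmTs s π q a v (x.name s π q a v) T r f).eQ z
        = (x.z.Yt (x.ta s a) - 2 * nmRep s v x.z.X * x.z.Bt (x.ta s a)
            - nmRep s (a + 2 * v) (x.z.Yt (x.ta s a) - 2 * nmRep s v x.z.X * x.z.Bt (x.ta s a)))
          + (T - x.ta s a) * (x.z.X - nmRep s v x.z.X) ^ 2 := by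
      simp only [SfTest.eQ, nmTs, NmRaw.name, NmNm.Bv, NmNm.Xv, NmNm.Yv, NmNm.tv, ← nm_rep_val]
      generalize nmRep s (a + 2 * v) (x.z.Yt (x.ta s a) - 2 * nmRep s v x.z.X * x.z.Bt (x.ta s a)) = Yv
      generalize nmRep s (a + v) (x.z.Bt (x.ta s a)) = Bv
      simp only [SfRay.Bt, SfRay.Yt, NmRaw.ta, hX, hB, hY]
      ring
    rw [e]
    refine nm_cn_aux_a_sum cY hT ?_ ha (by positivity)
    rw [abs_pow]
    exact pow_le_pow_left₀ (abs_nonneg _) cX 2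
  · have e : (nmTs s π q a v (x.name s π q a v) T r f).eN z
        = x.Nres s π q a v - nmRep s (q.w π a v - q.g) (x.Nres s π q a v) := by
      simp only [SfTest.eN, nmTs, NmRaw.name, NmNm.Nv, NmNm.Lv, NmNm.Rv, NmNm.kv, NmNm.kbv, NmNm.tv, NmRaw.Lc, NmRaw.Rc, NmRaw.kc,
        ← nm_rep_val]
      generalize nmRep s (q.w π a v - q.g) (x.Nres s π q a v) = Nv
      simp only [NmRaw.Nres, NmRaw.La, NmRaw.Ra, NmRaw.ka, SfRay.Bt, SfRay.Yt, NmRaw.ta, hX, hB, hY, hN]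
      ring
    rw [e]
    exact cN
  · have e : (nmTs s π q a v (x.name s π q a v) T r f).eD z
        = (x.Dres s π q a v - nmRep s (a + q.w π a v - q.g) (x.Dres s π q a v))
          + (T - x.ta s a) * (x.Nres s π q a v - nmRep s (q.w π a v - q.g) (x.Nres s π q a v)) := by
      simp only [SfTest.eD, nmTs, NmRaw.name, NmNm.Nv, NmNm.Dv, NmNm.Lv, NmNm.Rv, NmNm.kv, NmNm.kbv, NmNm.tv, NmRaw.Lc, NmRaw.Rc, NmRaw.kc,
        ← nm_rep_val]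
      generalize nmRep s (q.w π a v - q.g) (x.Nres s π q a v) = Nv
      generalize nmRep s (a + q.w π a v - q.g) (x.Dres s π q a v) = Dv
      simp only [NmRaw.Nres, NmRaw.Dres, NmRaw.La, NmRaw.Ra, NmRaw.ka, SfRay.Bt, SfRay.Yt, SfRay.Dt, NmRaw.ta, hX, hB, hY, hN, hD]
      ring
    rw [e]
    exact nm_cn_aux_a_sum cD hT cN ha hw0

theorem nm_cn_aux_b_mul {a b A B : ℝ} (ha : |a| ≤ A) (hb : |b| ≤ B) : |a * b| ≤ A * B := by
  rw [abs_mul]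
  exact mul_le_mul ha hb (abs_nonneg _) ((abs_nonneg _).trans ha)

/-- **perturbation of the ray**.      LEAF L-256-NM-CAN-B (120 l.): `|ΔX|, |ΔB|, |ΔY| ≤ ε`; `|ΔB_T| ≤ 2 ε`, `|ΔY_T| ≤ ε + 2 S ε`, `|Δ(X²)| ≤ 2 S ε`, `|Δ(X B_T)| ≤ 4 S ε`, `|Δ(B_T²)| ≤ 8 S ε`; all entries of `Q` are `≤ S`. -/
theorem nm_cn_pert (Q : SfTest) (z0 z : SfRay) (S ε δN δD : ℝ) (hT : 0 ≤ Q.T ∧ Q.T ≤ 1) (hS : 1 ≤ S) (hQ : Q.size ≤ S) (hz0 : z0.size ≤ S)
    (hz : z.size ≤ S) (hε : 0 ≤ ε) (hb : z0.bdist z ≤ ε) (hN : |z.N - z0.N| ≤ δN) (hD : |z.Dt Q.T - z0.Dt Q.T| ≤ δD) :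
    |z.X - Q.x| ≤ |z0.X - Q.x| + ε ∧ |z.Bt Q.T - Q.b| ≤ |z0.Bt Q.T - Q.b| + 2 * ε ∧ |Q.eQ z| ≤ |Q.eQ z0| + 7 * S * ε ∧
      |Q.eN z| ≤ |Q.eN z0| + δN + 14 * S ^ 2 * ε ∧ |Q.eD z| ≤ |Q.eD z0| + δD + 14 * S ^ 2 * ε := by
  simp only [SfTest.size, max_le_iff] at hQ
  simp only [SfRay.size, max_le_iff] at hz0 hz
  simp only [SfRay.bdist, max_le_iff] at hb
  obtain ⟨qx, qb, qy, qc, qd, qal, qbe, qK⟩ := hQ
  obtain ⟨aX, aB, aY, aN, aD⟩ := hz0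
  obtain ⟨bX, bB, bY, bN, bD⟩ := hz
  obtain ⟨dX, dB, dY⟩ := hb
  rw [abs_sub_comm] at dX dB dY
  have hTa : |Q.T| ≤ 1 := by
    rw [abs_of_nonneg hT.1]
    exact hT.2
  have hSε : S * ε ≤ S ^ 2 * ε := by
    have : S * 1 ≤ S * S := mul_le_mul_of_nonneg_left hS (by linarith)
    nlinarith
  have hε1 : ε ≤ S * ε := by nlinarith
  -- the elementary differences
  have e1 : |Q.T * (z.X - z0.X)| ≤ 1 * ε := nm_cn_aux_b_mul hTa dX
  have hBt : |z.Bt Q.T - z0.Bt Q.T| ≤ 2 * ε := by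
    have : z.Bt Q.T - z0.Bt Q.T = (z.B - z0.B) + Q.T * (z.X - z0.X) := by
      unfold SfRay.Bt
      ring
    rw [this]
    exact (abs_add_le _ _).trans (by linarith)
  have hXs : |z.X + z0.X| ≤ 2 * S := (abs_add_le _ _).trans (by linarith)
  have hX2 : |z.X ^ 2 - z0.X ^ 2| ≤ ε * (2 * S) := by
    have : z.X ^ 2 - z0.X ^ 2 = (z.X - z0.X) * (z.X + z0.X) := by ring
    rw [this]
    exact nm_cn_aux_b_mul dX hXs
  have e2 : |Q.T * (z.X ^ 2 - z0.X ^ 2)| ≤ 1 * (ε * (2 * S)) := nm_cn_aux_b_mul hTa hX2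
  have hYt : |z.Yt Q.T - z0.Yt Q.T| ≤ ε + 2 * S * ε := by
    have : z.Yt Q.T - z0.Yt Q.T = (z.Y - z0.Y) + Q.T * (z.X ^ 2 - z0.X ^ 2) := by
      unfold SfRay.Yt
      ring
    rw [this]
    exact (abs_add_le _ _).trans (by linarith)
  have hB1 : |z.Bt Q.T| ≤ 2 * S := by
    unfold SfRay.Bt
    have := nm_cn_aux_b_mul hTa bX
    exact (abs_add_le _ _).trans (by linarith)
  have hB0 : |z0.Bt Q.T| ≤ 2 * S := by
    unfold SfRay.Bt
    have := nm_cn_aux_b_mul hTa aX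
    exact (abs_add_le _ _).trans (by linarith)
  have hXB : |z.X * z.Bt Q.T - z0.X * z0.Bt Q.T| ≤ 4 * S * ε := by
    have : z.X * z.Bt Q.T - z0.X * z0.Bt Q.T = (z.X - z0.X) * z.Bt Q.T + z0.X * (z.Bt Q.T - z0.Bt Q.T) := by ring
    rw [this]
    have h1 := nm_cn_aux_b_mul dX hB1
    have h2 := nm_cn_aux_b_mul aX hBt
    exact (abs_add_le _ _).trans (by linarith)
  have hBs : |z.Bt Q.T + z0.Bt Q.T| ≤ 4 * S := (abs_add_le _ _).trans (by linarith)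
  have hB2 : |z.Bt Q.T ^ 2 - z0.Bt Q.T ^ 2| ≤ 2 * ε * (4 * S) := by
    have : z.Bt Q.T ^ 2 - z0.Bt Q.T ^ 2 = (z.Bt Q.T - z0.Bt Q.T) * (z.Bt Q.T + z0.Bt Q.T) := by ring
    rw [this]
    exact nm_cn_aux_b_mul hBt hBs
  refine ⟨?_, ?_, ?_, ?_, ?_⟩
  · have : z.X - Q.x = (z0.X - Q.x) + (z.X - z0.X) := by ring
    rw [this]
    exact (abs_add_le _ _).trans (by linarith)
  · have : z.Bt Q.T - Q.b = (z0.Bt Q.T - Q.b) + (z.Bt Q.T - z0.Bt Q.T) := by ring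
    rw [this]
    exact (abs_add_le _ _).trans (by linarith)
  · have : Q.eQ z = Q.eQ z0 + ((z.Yt Q.T - z0.Yt Q.T) - 2 * (Q.x * (z.Bt Q.T - z0.Bt Q.T))) := by
      unfold SfTest.eQ
      ring
    rw [this]
    have h1 := nm_cn_aux_b_mul qx hBt
    have h2 := abs_sub (z.Yt Q.T - z0.Yt Q.T) (2 * (Q.x * (z.Bt Q.T - z0.Bt Q.T)))
    have h3 : |2 * (Q.x * (z.Bt Q.T - z0.Bt Q.T))| = 2 * |Q.x * (z.Bt Q.T - z0.Bt Q.T)| := by
      rw [abs_mul, abs_two]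
    exact (abs_add_le _ _).trans (by linarith)
  · have : Q.eN z = Q.eN z0 + ((z.N - z0.N) - Q.al * (z.X - z0.X) - Q.be * (z.X ^ 2 - z0.X ^ 2)
        - Q.K * (z.Yt Q.T - z0.Yt Q.T) + 2 * (Q.K * (z.X * z.Bt Q.T - z0.X * z0.Bt Q.T))) := by
      unfold SfTest.eN
      ring
    rw [this]
    have h1 := nm_cn_aux_b_mul qal dX
    have h2 := nm_cn_aux_b_mul qbe hX2
    have h3 := nm_cn_aux_b_mul qK hYt
    have h4 := nm_cn_aux_b_mul qK hXB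
    have h5 : |2 * (Q.K * (z.X * z.Bt Q.T - z0.X * z0.Bt Q.T))| = 2 * |Q.K * (z.X * z.Bt Q.T - z0.X * z0.Bt Q.T)| := by
      rw [abs_mul, abs_two]
    have g1 := abs_add_le ((z.N - z0.N) - Q.al * (z.X - z0.X) - Q.be * (z.X ^ 2 - z0.X ^ 2)
        - Q.K * (z.Yt Q.T - z0.Yt Q.T)) (2 * (Q.K * (z.X * z.Bt Q.T - z0.X * z0.Bt Q.T)))
    have g2 := abs_sub ((z.N - z0.N) - Q.al * (z.X - z0.X) - Q.be * (z.X ^ 2 - z0.X ^ 2)) (Q.K * (z.Yt Q.T - z0.Yt Q.T))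
    have g3 := abs_sub ((z.N - z0.N) - Q.al * (z.X - z0.X)) (Q.be * (z.X ^ 2 - z0.X ^ 2))
    have g4 := abs_sub (z.N - z0.N) (Q.al * (z.X - z0.X))
    refine (abs_add_le _ _).trans ?_
    have k1 : S * (ε * (2 * S)) = 2 * (S ^ 2 * ε) := by ring
    have k2 : S * (ε + 2 * S * ε) = S * ε + 2 * (S ^ 2 * ε) := by ring
    have k3 : S * (4 * S * ε) = 4 * (S ^ 2 * ε) := by ring
    linarith
  · have : Q.eD z = Q.eD z0 + ((z.Dt Q.T - z0.Dt Q.T) - Q.al * (z.Bt Q.T - z0.Bt Q.T) - Q.be * (z.Yt Q.T - z0.Yt Q.T)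
        + Q.K * (z.Bt Q.T ^ 2 - z0.Bt Q.T ^ 2)) := by
      unfold SfTest.eD
      ring
    rw [this]
    have h1 := nm_cn_aux_b_mul qal hBt
    have h2 := nm_cn_aux_b_mul qbe hYt
    have h3 := nm_cn_aux_b_mul qK hB2
    have g1 := abs_add_le ((z.Dt Q.T - z0.Dt Q.T) - Q.al * (z.Bt Q.T - z0.Bt Q.T) - Q.be * (z.Yt Q.T - z0.Yt Q.T))
      (Q.K * (z.Bt Q.T ^ 2 - z0.Bt Q.T ^ 2))
    have g2 := abs_sub ((z.Dt Q.T - z0.Dt Q.T) - Q.al * (z.Bt Q.T - z0.Bt Q.T)) (Q.be * (z.Yt Q.T - z0.Yt Q.T))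
    have g3 := abs_sub (z.Dt Q.T - z0.Dt Q.T) (Q.al * (z.Bt Q.T - z0.Bt Q.T))
    refine (abs_add_le _ _).trans ?_
    have k2 : S * (ε + 2 * S * ε) = S * ε + 2 * (S ^ 2 * ε) := by ring
    have k3 : S * (2 * ε * (4 * S)) = 8 * (S ^ 2 * ε) := by ring
    linarith

theorem nm_cn_aux_c_rep {s : ℝ} (h0 : 0 < s) (h1 : s < 1) (b y Y A : ℝ) (hy : |y| ≤ Y) (hb : s ^ b ≤ A) : |nmRep s b y| ≤ Y + A := by
  have h := nm_rep_abs h0 h1 b y
  have e : nmRep s b y = y - (y - nmRep s b y) := by ring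
  rw [e]
  exact (abs_sub _ _).trans (by linarith)

/-- **the parameters of the test are polynomial**: `A ≥ 1` bounds the raw datum, the global bin and the nine meshes.      LEAF L-256-NM-CAN-C (200 l.).   Chain (each decoded value = raw number up to its mesh, `nm_rep_abs`):
`|t_a| ≤ 2A`, `|τ| ≤ 3A`, `|R_v| ≤ 5A²`, `|k_v| ≤ 2A`, `|B_{t_a}| ≤ 3A²`, `|Y_{t_a}| ≤ 3A³`, `|D_{t_a}| ≤ 3A²`, `|L_v| ≤ 24A³`, `|X_v| ≤ 2A`, `|B_v| ≤ 4A²`, `|Y_v| ≤ 16A³`, `|N_v| ≤ 49A⁴`, `|D_v| ≤ 109A⁵`;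
`|b| ≤ 10A²`, `|y| ≤ 44A³`, `|d| ≤ 256A⁵`, `|be| ≤ 12A²`, `|K| ≤ 3A`. -/
theorem nm_cn_size {s : ℝ} (h0 : 0 < s) (h1 : s < 1) (π : SfPar) (q : NmQ) (a v : ℝ) (x : NmRaw) (A : ℝ) (hA : 1 ≤ A) (hx : x.size ≤ A)
    (hxT : |x.T| ≤ 1) (hxe : |x.Te| ≤ 1) (hkb : |nmVal s (π.b2 q.ds.De - q.ds.De) x.kb| ≤ A)
    (w1 : s ^ a ≤ A) (w2 : s ^ v ≤ A) (w3 : s ^ (a + v) ≤ A) (w4 : s ^ (a + 2 * v) ≤ A) (w5 : s ^ (q.ds.b a) ≤ A) (w6 : s ^ (q.ds.b a - a) ≤ A)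
    (w7 : s ^ (q.l π a v) ≤ A) (w8 : s ^ (q.w π a v - q.g) ≤ A) (w9 : s ^ (a + q.w π a v - q.g) ≤ A) (T r f : ℝ) (hT : |T| ≤ 1) :
    (nmTs s π q a v (x.name s π q a v) T r f).size ≤ 1000 * A ^ 5 := by
  simp only [NmRaw.size, SfRay.size, max_le_iff] at hx
  obtain ⟨⟨zX, zB, zY, zN, zD⟩, xP, xbe, xK⟩ := hx
  have A0 : 0 ≤ A := by linarith
  have A2 : A ≤ A ^ 2 := by
    have := pow_le_pow_right₀ hA (show 1 ≤ 2 by norm_num)
    rwa [pow_one] at this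
  have A3 : A ^ 2 ≤ A ^ 3 := pow_le_pow_right₀ hA (by norm_num)
  have A4 : A ^ 3 ≤ A ^ 4 := pow_le_pow_right₀ hA (by norm_num)
  have A5 : A ^ 4 ≤ A ^ 5 := pow_le_pow_right₀ hA (by norm_num)
  -- times
  obtain ⟨ta, hta⟩ : ∃ ta : ℝ, ta = x.ta s a := ⟨_, rfl⟩
  have bta : |ta| ≤ 2 * A := by
    rw [hta]
    exact (nm_cn_aux_c_rep h0 h1 a x.T 1 A hxT w1).trans (by linarith)
  obtain ⟨τ, hτ⟩ : ∃ τ : ℝ, τ = T - ta := ⟨_, rfl⟩
  have bτ : |τ| ≤ 3 * A := by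
    rw [hτ]
    exact (abs_sub _ _).trans (by linarith)
  -- curvature
  have bRr : |x.Rraw s q a| ≤ 4 * A ^ 2 := by
    unfold NmRaw.Rraw
    split
    · rw [← hta]
      have g1 : |ta - x.Te| ≤ 3 * A := (abs_sub _ _).trans (by linarith)
      have g2 := nm_cn_aux_b_mul g1 xK
      exact (abs_add_le _ _).trans (by linarith)
    · linarith
    · rw [abs_zero]
      positivity
  obtain ⟨Rv, hRv⟩ : ∃ Rv : ℝ, Rv = x.Ra s q a := ⟨_, rfl⟩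
  have bR : |Rv| ≤ 5 * A ^ 2 := by
    rw [hRv]
    exact (nm_cn_aux_c_rep h0 h1 _ _ _ A bRr w5).trans (by linarith)
  have bkr : |x.kraw q| ≤ A := by
    unfold NmRaw.kraw
    split
    · exact xK
    · rw [abs_zero]
      exact A0
    · rw [abs_zero]
      exact A0
  obtain ⟨kv, hkv⟩ : ∃ kv : ℝ, kv = x.ka s q a := ⟨_, rfl⟩
  have bk : |kv| ≤ 2 * A := by
    rw [hkv]
    exact (nm_cn_aux_c_rep h0 h1 _ _ _ A bkr w6).trans (by linarith)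
  -- the ray at `t_a`
  obtain ⟨Bt, hBt⟩ : ∃ Bt : ℝ, Bt = x.z.Bt ta := ⟨_, rfl⟩
  have bBt : |Bt| ≤ 3 * A ^ 2 := by
    rw [hBt]
    unfold SfRay.Bt
    have g := nm_cn_aux_b_mul bta zX
    exact (abs_add_le _ _).trans (by linarith)
  have bX2 : |x.z.X ^ 2| ≤ A ^ 2 := by
    rw [abs_pow]
    exact pow_le_pow_left₀ (abs_nonneg _) zX 2
  obtain ⟨Yt, hYt⟩ : ∃ Yt : ℝ, Yt = x.z.Yt ta := ⟨_, rfl⟩
  have bYt : |Yt| ≤ 3 * A ^ 3 := by
    rw [hYt]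
    unfold SfRay.Yt
    have g := nm_cn_aux_b_mul bta bX2
    exact (abs_add_le _ _).trans (by linarith)
  obtain ⟨Dt, hDt⟩ : ∃ Dt : ℝ, Dt = x.z.Dt ta := ⟨_, rfl⟩
  have bDt : |Dt| ≤ 3 * A ^ 2 := by
    rw [hDt]
    unfold SfRay.Dt
    have g := nm_cn_aux_b_mul bta zN
    exact (abs_add_le _ _).trans (by linarith)
  -- the derivative
  have bLr : |x.Lraw s q a| ≤ 23 * A ^ 3 := by
    have e : x.Lraw s q a = x.P - 2 * (Rv * x.z.X) + 2 * (kv * Bt) := by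
      rw [hRv, hkv, hBt, hta]
      unfold NmRaw.Lraw
      ring
    rw [e]
    have g1 := nm_cn_aux_b_mul bR zX
    have g2 := nm_cn_aux_b_mul bk bBt
    have g3 := abs_add_le (x.P - 2 * (Rv * x.z.X)) (2 * (kv * Bt))
    have g4 := abs_sub x.P (2 * (Rv * x.z.X))
    have g5 : |2 * (Rv * x.z.X)| = 2 * |Rv * x.z.X| := by rw [abs_mul, abs_two]
    have g6 : |2 * (kv * Bt)| = 2 * |kv * Bt| := by rw [abs_mul, abs_two]
    linarith
  obtain ⟨Lv, hLv⟩ : ∃ Lv : ℝ, Lv = x.La s π q a v := ⟨_, rfl⟩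
  have bL : |Lv| ≤ 24 * A ^ 3 := by
    rw [hLv]
    exact (nm_cn_aux_c_rep h0 h1 _ _ _ A bLr w7).trans (by linarith)
  -- the base
  obtain ⟨Xv, hXv⟩ : ∃ Xv : ℝ, Xv = nmRep s v x.z.X := ⟨_, rfl⟩
  have bX : |Xv| ≤ 2 * A := by
    rw [hXv]
    exact (nm_cn_aux_c_rep h0 h1 _ _ _ A zX w2).trans (by linarith)
  obtain ⟨Bv, hBv⟩ : ∃ Bv : ℝ, Bv = nmRep s (a + v) Bt := ⟨_, rfl⟩
  have bB : |Bv| ≤ 4 * A ^ 2 := by
    rw [hBv]
    exact (nm_cn_aux_c_rep h0 h1 _ _ _ A bBt w3).trans (by linarith)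
  have bYr : |Yt - 2 * Xv * Bt| ≤ 15 * A ^ 3 := by
    have g1 := nm_cn_aux_b_mul bX bBt
    have g2 := abs_sub Yt (2 * Xv * Bt)
    have g3 : |2 * Xv * Bt| = 2 * |Xv * Bt| := by rw [mul_assoc, abs_mul, abs_two]
    linarith
  obtain ⟨Yv, hYv⟩ : ∃ Yv : ℝ, Yv = nmRep s (a + 2 * v) (Yt - 2 * Xv * Bt) := ⟨_, rfl⟩
  have bY : |Yv| ≤ 16 * A ^ 3 := by
    rw [hYv]
    exact (nm_cn_aux_c_rep h0 h1 _ _ _ A bYr w4).trans (by linarith)
  -- the normal part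
  have bXB : |x.z.X * Bt| ≤ A * (3 * A ^ 2) := nm_cn_aux_b_mul zX bBt
  have bNr : |x.Nres s π q a v| ≤ 48 * A ^ 4 := by
    have e : x.Nres s π q a v = x.z.N - Lv * x.z.X - Rv * x.z.X ^ 2 - kv * (Yt - 2 * (x.z.X * Bt)) := by
      rw [hLv, hRv, hkv, hYt, hBt, hta]
      unfold NmRaw.Nres
      ring
    rw [e]
    have g1 := nm_cn_aux_b_mul bL zX
    have g2 := nm_cn_aux_b_mul bR bX2
    have g3 : |Yt - 2 * (x.z.X * Bt)| ≤ 9 * A ^ 3 := by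
      have g4 := abs_sub Yt (2 * (x.z.X * Bt))
      have g5 : |2 * (x.z.X * Bt)| = 2 * |x.z.X * Bt| := by rw [abs_mul, abs_two]
      linarith
    have g6 := nm_cn_aux_b_mul bk g3
    have g7 := abs_sub (x.z.N - Lv * x.z.X - Rv * x.z.X ^ 2) (kv * (Yt - 2 * (x.z.X * Bt)))
    have g8 := abs_sub (x.z.N - Lv * x.z.X) (Rv * x.z.X ^ 2)
    have g9 := abs_sub x.z.N (Lv * x.z.X)
    linarith
  obtain ⟨Nv, hNv⟩ : ∃ Nv : ℝ, Nv = nmRep s (q.w π a v - q.g) (x.Nres s π q a v) := ⟨_, rfl⟩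
  have bN : |Nv| ≤ 49 * A ^ 4 := by
    rw [hNv]
    exact (nm_cn_aux_c_rep h0 h1 _ _ _ A bNr w8).trans (by linarith)
  have bBt2 : |Bt ^ 2| ≤ (3 * A ^ 2) ^ 2 := by
    rw [abs_pow]
    exact pow_le_pow_left₀ (abs_nonneg _) bBt 2
  have bDr : |x.Dres s π q a v| ≤ 108 * A ^ 5 := by
    have e : x.Dres s π q a v = Dt - Lv * Bt - Rv * Yt + kv * Bt ^ 2 := by
      rw [hLv, hRv, hkv, hYt, hBt, hDt, hta]
      unfold NmRaw.Dres
      ring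
    rw [e]
    have g1 := nm_cn_aux_b_mul bL bBt
    have g2 := nm_cn_aux_b_mul bR bYt
    have g3 := nm_cn_aux_b_mul bk bBt2
    have g7 := abs_add_le (Dt - Lv * Bt - Rv * Yt) (kv * Bt ^ 2)
    have g8 := abs_sub (Dt - Lv * Bt) (Rv * Yt)
    have g9 := abs_sub Dt (Lv * Bt)
    linarith
  obtain ⟨Dv, hDv⟩ : ∃ Dv : ℝ, Dv = nmRep s (a + q.w π a v - q.g) (x.Dres s π q a v) := ⟨_, rfl⟩
  have bD : |Dv| ≤ 109 * A ^ 5 := by
    rw [hDv]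
    exact (nm_cn_aux_c_rep h0 h1 _ _ _ A bDr w9).trans (by linarith)
  obtain ⟨kb, hkbv⟩ : ∃ kb : ℝ, kb = nmVal s (π.b2 q.ds.De - q.ds.De) x.kb := ⟨_, rfl⟩
  rw [← hkbv] at hkb
  -- the parameters
  have ex : (nmTs s π q a v (x.name s π q a v) T r f).x = Xv := by rw [hXv]; rfl
  have eb : (nmTs s π q a v (x.name s π q a v) T r f).b = Bv + τ * Xv := by rw [hBv, hτ, hXv, hBt, hta]; rfl
  have ey : (nmTs s π q a v (x.name s π q a v) T r f).y = Yv + τ * Xv ^ 2 + 2 * Xv * Bv := by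
    rw [hYv, hBv, hτ, hXv, hBt, hYt, hta]; rfl
  have ec : (nmTs s π q a v (x.name s π q a v) T r f).c = Nv := by rw [hNv]; rfl
  have ed : (nmTs s π q a v (x.name s π q a v) T r f).d = Dv + τ * Nv := by rw [hDv, hNv, hτ, hta]; rfl
  have eal : (nmTs s π q a v (x.name s π q a v) T r f).al = Lv := by rw [hLv]; rfl
  have ebe : (nmTs s π q a v (x.name s π q a v) T r f).be = Rv + τ * kv + kb * T := by rw [hRv, hkv, hτ, hkbv, hta]; rfl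
  have eK : (nmTs s π q a v (x.name s π q a v) T r f).K = kv + kb := by rw [hkv, hkbv]; rfl
  simp only [SfTest.size, max_le_iff]
  rw [ex, eb, ey, ec, ed, eal, ebe, eK]
  have bXv2 : |Xv ^ 2| ≤ (2 * A) ^ 2 := by
    rw [abs_pow]
    exact pow_le_pow_left₀ (abs_nonneg _) bX 2
  refine ⟨by linarith, ?_, ?_, by linarith, ?_, by linarith, ?_, ?_⟩
  · have g1 := nm_cn_aux_b_mul bτ bX
    exact (abs_add_le _ _).trans (by linarith)
  · have g1 := nm_cn_aux_b_mul bτ bXv2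
    have g2 := nm_cn_aux_b_mul bX bB
    have g3 : |2 * Xv * Bv| = 2 * |Xv * Bv| := by rw [mul_assoc, abs_mul, abs_two]
    have g4 := abs_add_le (Yv + τ * Xv ^ 2) (2 * Xv * Bv)
    have g5 := abs_add_le Yv (τ * Xv ^ 2)
    linarith
  · have g1 := nm_cn_aux_b_mul bτ bN
    exact (abs_add_le _ _).trans (by linarith)
  · have g1 := nm_cn_aux_b_mul bτ bk
    have g2 := nm_cn_aux_b_mul hkb hT
    have g4 := abs_add_le (Rv + τ * kv) (kb * T)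
    have g5 := abs_add_le Rv (τ * kv)
    linarith
  · exact (abs_add_le _ _).trans (by linarith)

/-- `l`-separated reals in an interval of length `L`.      LEAF L-256-NM-CAN-D (40 l.): `x ↦ ⌊(x - t0) / l⌋` is injective into `Finset.Icc 0 ⌊L / l⌋`. -/
theorem nm_cn_pack (S : Finset ℝ) (l L t0 : ℝ) (hl : 0 < l) (hL : 0 ≤ L) (hsep : ∀ x ∈ S, ∀ y ∈ S, x ≠ y → l ≤ |x - y|)
    (hin : ∀ x ∈ S, t0 ≤ x ∧ x ≤ t0 + L) : (S.card : ℝ) ≤ L / l + 1 := by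
  have hmaps : ∀ x ∈ S, ⌊(x - t0) / l⌋ ∈ Finset.Icc (0 : ℤ) ⌊L / l⌋ := by
    intro x hx
    obtain ⟨h1, h2⟩ := hin x hx
    rw [Finset.mem_Icc]
    constructor
    · exact Int.floor_nonneg.2 (div_nonneg (by linarith) hl.le)
    · exact Int.floor_le_floor (div_le_div_of_nonneg_right (by linarith) hl.le)
  have hinj : Set.InjOn (fun x : ℝ => ⌊(x - t0) / l⌋) (S : Set ℝ) := by
    intro x hx y hy hxy
    by_contra hne
    have h1 := hsep x hx y hy hne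
    have hxy' : ⌊(x - t0) / l⌋ = ⌊(y - t0) / l⌋ := hxy
    have h2 : |(x - t0) / l - (y - t0) / l| < 1 := Int.abs_sub_lt_one_of_floor_eq_floor hxy'
    have e : (x - t0) / l - (y - t0) / l = (x - y) / l := by ring
    rw [e, abs_div, abs_of_pos hl, div_lt_one hl] at h2
    linarith
  have hcard := Finset.card_le_card_of_injOn _ hmaps hinj
  rw [Int.card_Icc] at hcard
  have h0 : (0 : ℤ) ≤ ⌊L / l⌋ := Int.floor_nonneg.2 (div_nonneg hL hl.le)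
  have h3 : (((⌊L / l⌋ + 1 - 0).toNat : ℕ) : ℝ) = (⌊L / l⌋ : ℝ) + 1 := by
    have := Int.toNat_of_nonneg (show (0 : ℤ) ≤ ⌊L / l⌋ + 1 - 0 by omega)
    have h4 : (((⌊L / l⌋ + 1 - 0).toNat : ℕ) : ℝ) = ((⌊L / l⌋ + 1 - 0 : ℤ) : ℝ) := by exact_mod_cast this
    rw [h4]
    push_cast
    ring
  have h5 : (S.card : ℝ) ≤ (((⌊L / l⌋ + 1 - 0).toNat : ℕ) : ℝ) := by exact_mod_cast hcard
  rw [h3] at h5
  linarith [Int.floor_le (L / l)]

theorem nm_cn_test_eqns_cite : True := by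
  have := @NmNm.kbv.eq_1; have := @nmTs.eq_1; have := @SfTest.eQ.eq_1
  trivial

end

end Claimed.Agent.R256
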